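import Vale.Agent.P297.H160.Z2Pts

/-!
General numerical Godeaux surfaces with torsion of order two: the curve over a value of `y` as the
intersection of a quadric and a cubic in the tricanonical space, the nodal plane cubic, the points
of the cubic cones.
-/

set_option linter.unusedSectionVars false
set_option linter.unusedVariables false

namespace Vale.Agent.P297.H279.K2

open Vale.Agent.P297.H160.Z2Irr

/-- The coefficients over a value of `y`: `A = P0 / U`, `B = P2 / V`, `e`, `m` the right sides of the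
second and of the third equation. -/
structure KD (R : Type*) where
  U : R
  V : R
  a : R
  c : R
  A : R
  B : R
  e : R
  m : R

namespace KD

/-- the image of a datum -/
def map {R R' : Type*} (D : KD R) (f : R → R') : KD R' :=
  ⟨f D.U, f D.V, f D.a, f D.c, f D.A, f D.B, f D.e, f D.m⟩

section ring

variable {R : Type*} [CommRing R] (D : KD R)

def Q2 (v : Fin 4 → R) : R :=
  v 0 * v 2 - v 1 * v 3 + (1 + D.A + D.B) * v 0 * v 1 - D.B * v 1 ^ 2 - D.A * v 0 ^ 2

def Q3 (v : Fin 4 → R) : R :=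
  v 2 * v 3 - 2 * D.B * v 0 * v 2 + 2 * D.A * v 1 * v 3 - 2 * D.A * D.B * v 0 * v 1 +
    D.A ^ 2 * v 0 ^ 2 + D.B ^ 2 * v 1 ^ 2

def C3 (v : Fin 4 → R) : R := v 3 * v 1 ^ 2 - v 2 * v 0 ^ 2

def L (v : Fin 4 → R) : R := D.U ^ 2 * v 3 - D.V ^ 2 * v 2 - D.a * D.U * v 0 - D.c * D.V * v 1

/-- the quadric -/
def Q (v : Fin 4 → R) : R := D.m * D.Q2 v - D.e * D.Q3 v

/-- the cubic -/
def Cf (v : Fin 4 → R) : R := D.e * C3 v + D.Q2 v * D.L v

/-- polar forms -/
def b2 (v w : Fin 4 → R) : R :=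
  v 0 * w 2 + w 0 * v 2 - v 1 * w 3 - w 1 * v 3 + (1 + D.A + D.B) * (v 0 * w 1 + w 0 * v 1) -
    2 * D.B * v 1 * w 1 - 2 * D.A * v 0 * w 0

def b3 (v w : Fin 4 → R) : R :=
  v 2 * w 3 + w 2 * v 3 - 2 * D.B * (v 0 * w 2 + w 0 * v 2) + 2 * D.A * (v 1 * w 3 + w 1 * v 3) -
    2 * D.A * D.B * (v 0 * w 1 + w 0 * v 1) + 2 * D.A ^ 2 * v 0 * w 0 + 2 * D.B ^ 2 * v 1 * w 1

def b (v w : Fin 4 → R) : R := D.m * D.b2 v w - D.e * D.b3 v w

/-- coefficient of `α ^ 2 β` in `C3 (α v + β w)` -/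
def C31 (v w : Fin 4 → R) : R :=
  w 3 * v 1 ^ 2 + 2 * v 3 * v 1 * w 1 - w 2 * v 0 ^ 2 - 2 * v 2 * v 0 * w 0

/-- coefficient of `α ^ 2 β` in `Cf (α v + β w)` -/
def C1 (v w : Fin 4 → R) : R := D.e * C31 v w + D.Q2 v * D.L w + D.b2 v w * D.L v

/-- linear combinations -/
def lc (α : R) (v : Fin 4 → R) (β : R) (w : Fin 4 → R) : Fin 4 → R := fun i => α * v i + β * w i

theorem L_lc (α β : R) (v w : Fin 4 → R) : D.L (lc α v β w) = α * D.L v + β * D.L w := by
  simp only [L, lc]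
  ring

theorem Q2_lc (α β : R) (v w : Fin 4 → R) :
    D.Q2 (lc α v β w) = α ^ 2 * D.Q2 v + α * β * D.b2 v w + β ^ 2 * D.Q2 w := by
  simp only [Q2, b2, lc]
  ring

theorem Q3_lc (α β : R) (v w : Fin 4 → R) :
    D.Q3 (lc α v β w) = α ^ 2 * D.Q3 v + α * β * D.b3 v w + β ^ 2 * D.Q3 w := by
  simp only [Q3, b3, lc]
  ring

theorem Q_lc (α β : R) (v w : Fin 4 → R) :
    D.Q (lc α v β w) = α ^ 2 * D.Q v + α * β * D.b v w + β ^ 2 * D.Q w := by
  simp only [Q, b, Q2_lc, Q3_lc]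
  ring

theorem C3_lc (α β : R) (v w : Fin 4 → R) :
    C3 (lc α v β w) = α ^ 3 * C3 v + α ^ 2 * β * C31 v w + α * β ^ 2 * C31 w v +
      β ^ 3 * C3 w := by
  simp only [C3, C31, lc]
  ring

theorem Cf_lc (α β : R) (v w : Fin 4 → R) :
    D.Cf (lc α v β w) = α ^ 3 * D.Cf v + α ^ 2 * β * D.C1 v w + α * β ^ 2 * D.C1 w v +
      β ^ 3 * D.Cf w := by
  have h : D.b2 w v = D.b2 v w := by
    simp only [b2]
    ring
  simp only [Cf, C1, C3_lc, Q2_lc, L_lc, h]
  ring

/-- **The nodal plane cubic.** -/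
def gam (α β : R) : Fin 4 → R :=
  ![α * (D.U ^ 2 * α ^ 2 - D.V ^ 2 * β ^ 2), β * (D.U ^ 2 * α ^ 2 - D.V ^ 2 * β ^ 2),
    β ^ 2 * (D.a * D.U * α + D.c * D.V * β), α ^ 2 * (D.a * D.U * α + D.c * D.V * β)]

theorem L_gam (α β : R) : D.L (D.gam α β) = 0 := by
  simp only [L, gam, Matrix.cons_val_zero, Matrix.cons_val_one, Matrix.cons_val]
  ring

theorem C3_gam (α β : R) : C3 (D.gam α β) = 0 := by
  simp only [C3, gam, Matrix.cons_val_zero, Matrix.cons_val_one, Matrix.cons_val]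
  ring

theorem Cf_gam (α β : R) : D.Cf (D.gam α β) = 0 := by
  rw [Cf, C3_gam, L_gam, mul_zero, mul_zero, add_zero]

/-- **The second point of the quadric** on the line through `x` and `g`. -/
def zz (x g : Fin 4 → R) : Fin 4 → R := lc (D.Q g) x (-D.b x g) g

/-- the form whose roots are the points of the curve on the cone -/
def Rf (x g : Fin 4 → R) : R :=
  D.Q g ^ 2 * D.Cf x - D.Q g * D.b x g * D.C1 x g + D.b x g ^ 2 * D.C1 g x

/-- the form whose roots are the chords through `x` -/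
def g9 (x g : Fin 4 → R) : R := D.b x g * D.C1 g x - D.Q g * D.C1 x g

theorem Q_zz {x g : Fin 4 → R} (hx : D.Q x = 0) : D.Q (D.zz x g) = 0 := by
  rw [zz, Q_lc, hx]
  ring

theorem Cf_zz {x g : Fin 4 → R} (hg : D.Cf g = 0) : D.Cf (D.zz x g) = D.Q g * D.Rf x g := by
  rw [zz, Cf_lc, hg, Rf]
  ring

theorem Rf_eq {x g : Fin 4 → R} (hx : D.Cf x = 0) : D.Rf x g = D.b x g * D.g9 x g := by
  rw [Rf, g9, hx]
  ring

/-- **The pencil of cubic surfaces.** -/
def Kf (l : R) (v : Fin 4 → R) : R :=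
  (D.m - l * D.e) * C3 v + (D.Q3 v - l * D.Q2 v) * D.L v

theorem e_mul_Kf (l : R) (v : Fin 4 → R) :
    D.e * D.Kf l v = (D.m - l * D.e) * D.Cf v - D.L v * D.Q v := by
  simp only [Kf, Cf, Q]
  ring

theorem gam_smul (c α β : R) : D.gam (c * α) (c * β) = fun i => c ^ 3 * D.gam α β i := by
  funext i
  fin_cases i <;> simp [gam] <;> ring

/-- the last coordinate of a point of the quadric -/
def den (k s : R) : R := D.m * k + D.e * s + 2 * D.e * D.A * k

def num (k s : R) : R :=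
  D.m * (s + (1 + D.A + D.B) * k - D.B * k ^ 2 - D.A) -
    D.e * (-2 * D.B * s - 2 * D.A * D.B * k + D.A ^ 2 + D.B ^ 2 * k ^ 2)

theorem Q_eq (k s t : R) : D.Q ![1, k, s, t] = D.num k s - D.den k s * t := by
  simp only [Q, Q2, Q3, num, den, Matrix.cons_val_zero, Matrix.cons_val_one, Matrix.cons_val]
  ring

end ring

section map

variable {R R' : Type*} [CommRing R] [CommRing R'] (D : KD R) (f : R →+* R')

theorem map_Q2 (v : Fin 4 → R) : f (D.Q2 v) = (D.map f).Q2 (fun i => f (v i)) := by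
  simp only [Q2, KD.map, map_add, map_sub, map_mul, map_pow, map_one]

theorem map_Q3 (v : Fin 4 → R) : f (D.Q3 v) = (D.map f).Q3 (fun i => f (v i)) := by
  simp only [Q3, KD.map, map_add, map_sub, map_mul, map_pow, map_ofNat]

theorem map_C3 (v : Fin 4 → R) : f (C3 v) = C3 (fun i => f (v i)) := by
  simp only [C3, map_sub, map_mul, map_pow]

theorem map_L (v : Fin 4 → R) : f (D.L v) = (D.map f).L (fun i => f (v i)) := by
  simp only [L, KD.map, map_sub, map_mul, map_pow]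

theorem map_Q (v : Fin 4 → R) : f (D.Q v) = (D.map f).Q (fun i => f (v i)) := by
  simp only [Q, map_sub, map_mul, map_Q2, map_Q3]
  rfl

theorem map_Cf (v : Fin 4 → R) : f (D.Cf v) = (D.map f).Cf (fun i => f (v i)) := by
  simp only [Cf, map_add, map_mul, map_Q2, map_C3, map_L]
  rfl

theorem map_b2 (v w : Fin 4 → R) :
    f (D.b2 v w) = (D.map f).b2 (fun i => f (v i)) (fun i => f (w i)) := by
  simp only [b2, KD.map, map_add, map_sub, map_mul, map_one, map_ofNat]

theorem map_b3 (v w : Fin 4 → R) :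
    f (D.b3 v w) = (D.map f).b3 (fun i => f (v i)) (fun i => f (w i)) := by
  simp only [b3, KD.map, map_add, map_sub, map_mul, map_pow, map_ofNat]

theorem map_b (v w : Fin 4 → R) :
    f (D.b v w) = (D.map f).b (fun i => f (v i)) (fun i => f (w i)) := by
  simp only [b, map_sub, map_mul, map_b2, map_b3]
  rfl

theorem map_C31 (v w : Fin 4 → R) :
    f (C31 v w) = C31 (fun i => f (v i)) (fun i => f (w i)) := by
  simp only [C31, map_add, map_sub, map_mul, map_pow, map_ofNat]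

theorem map_C1 (v w : Fin 4 → R) :
    f (D.C1 v w) = (D.map f).C1 (fun i => f (v i)) (fun i => f (w i)) := by
  simp only [C1, map_add, map_mul, map_Q2, map_b2, map_C31, map_L]
  rfl

theorem map_gam (α β : R) : (fun i => f (D.gam α β i)) = (D.map f).gam (f α) (f β) := by
  funext i
  fin_cases i <;>
  simp [gam, KD.map]

theorem map_Rf (x g : Fin 4 → R) :
    f (D.Rf x g) = (D.map f).Rf (fun i => f (x i)) (fun i => f (g i)) := by
  simp only [Rf, map_add, map_sub, map_mul, map_pow, map_Q, map_Cf, map_b, map_C1]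

theorem map_g9 (x g : Fin 4 → R) :
    f (D.g9 x g) = (D.map f).g9 (fun i => f (x i)) (fun i => f (g i)) := by
  simp only [g9, map_sub, map_mul, map_Q, map_b, map_C1]

theorem map_zz (x g : Fin 4 → R) :
    (fun i => f (D.zz x g i)) = (D.map f).zz (fun i => f (x i)) (fun i => f (g i)) := by
  funext i
  simp only [zz, lc, map_add, map_mul, map_neg, map_Q, map_b]

theorem map_num (k s : R) : f (D.num k s) = (D.map f).num (f k) (f s) := by
  simp only [num, KD.map, map_add, map_sub, map_mul, map_pow, map_neg, map_one, map_ofNat]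

theorem map_den (k s : R) : f (D.den k s) = (D.map f).den (f k) (f s) := by
  simp only [den, KD.map, map_add, map_mul, map_ofNat]

end map

end KD

section field

variable {N : Type} [Field N] [Algebra ℂ N] (P : Par)

/-- the right side of the third equation -/
def f3 (y : N) : N := fm P y + algebraMap ℂ N P.P0 / fU P y * fc P y * fV P y +
  algebraMap ℂ N P.P2 / fV P y * fa P y * fU P y -
  (algebraMap ℂ N P.P0 / fU P y * fV P y + algebraMap ℂ N P.P2 / fV P y * fU P y) ^ 2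

/-- The datum over `y`. -/
def kd (y : N) : KD N where
  U := fU P y
  V := fV P y
  a := fa P y
  c := fc P y
  A := algebraMap ℂ N P.P0 / fU P y
  B := algebraMap ℂ N P.P2 / fV P y
  e := f2 P y
  m := f3 P y

theorem map_kd {N' : Type} [Field N'] [Algebra ℂ N'] (f : N →ₐ[ℂ] N') (y : N) :
    (kd P y).map f = kd P (f y) := by
  simp only [KD.map, kd, f2, f3, map_add, map_sub, map_mul, map_div₀, map_pow, map_fU, map_fV,
    map_fa, map_fc, map_fe, map_fm, AlgHom.commutes]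

/-- the point of the tricanonical space of a point of the surface -/
def vec (w : Fin 5 → N) : Fin 4 → N := ![1, w 1, w 3, w 4]

/-- **The point of the surface** from a point of the tricanonical space. -/
def toW (y : N) (z : Fin 4 → N) : Fin 5 → N :=
  ![(kd P y).e * z 0 ^ 2 / (kd P y).Q2 z, z 1 / z 0, y, z 2 / z 0, z 3 / z 0]

theorem map_toW {N' : Type} [Field N'] [Algebra ℂ N'] (f : N →ₐ[ℂ] N') (y : N)
    (z : Fin 4 → N) : (fun j => f (toW P y z j)) = toW P (f y) (fun i => f (z i)) := by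
  have h1 := (kd P y).map_Q2 (f : N →+* N') z
  have h2 : (kd P y).map (f : N →+* N') = kd P (f y) := map_kd P f y
  have h3 : f (kd P y).e = (kd P (f y)).e := by
    rw [← map_kd]
    rfl
  rw [h2] at h1
  have h4 : f ((kd P y).Q2 z) = (kd P (f y)).Q2 (fun i => f (z i)) := h1
  funext j
  fin_cases j
  · simp [toW, h3, h4]
  · simp [toW]
  · rfl
  · simp [toW]
  · simp [toW]

variable {P}

theorem toW_E {y : N} {z : Fin 4 → N} (h0 : z 0 ≠ 0) (hQ2 : (kd P y).Q2 z ≠ 0)
    (hQ : (kd P y).Q z = 0) (hC : (kd P y).Cf z = 0) :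
    E1 P (toW P y z 0) (toW P y z 1) (toW P y z 2) (toW P y z 3) (toW P y z 4) ∧
    E2 P (toW P y z 0) (toW P y z 1) (toW P y z 2) (toW P y z 3) (toW P y z 4) ∧
    E3 P (toW P y z 0) (toW P y z 1) (toW P y z 2) (toW P y z 3) (toW P y z 4) := by
  obtain ⟨D, hD⟩ : ∃ D, D = kd P y := ⟨_, rfl⟩
  have e0 : toW P y z 0 = D.e * z 0 ^ 2 / D.Q2 z := by rw [hD]; rfl
  have e1 : toW P y z 1 = z 1 / z 0 := rfl
  have e2 : toW P y z 2 = y := rfl
  have e3 : toW P y z 3 = z 2 / z 0 := rfl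
  have e4 : toW P y z 4 = z 3 / z 0 := rfl
  rw [e0, e1, e2, e3, e4]
  have hU : fU P y = D.U := by rw [hD]; rfl
  have hV : fV P y = D.V := by rw [hD]; rfl
  have ha : fa P y = D.a := by rw [hD]; rfl
  have hc : fc P y = D.c := by rw [hD]; rfl
  have hA : algebraMap ℂ N P.P0 / fU P y = D.A := by rw [hD]; rfl
  have hB : algebraMap ℂ N P.P2 / fV P y = D.B := by rw [hD]; rfl
  have he : fe P y + algebraMap ℂ N P.P2 / fV P y * fU P y ^ 2 +
    algebraMap ℂ N P.P0 / fU P y * fV P y ^ 2 = D.e := by rw [hD]; rfl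
  have hm : fm P y + algebraMap ℂ N P.P0 / fU P y * fc P y * fV P y +
    algebraMap ℂ N P.P2 / fV P y * fa P y * fU P y -
    (algebraMap ℂ N P.P0 / fU P y * fV P y + algebraMap ℂ N P.P2 / fV P y * fU P y) ^ 2 = D.m := by
    rw [hD]; rfl
  rw [← hD] at hQ2 hQ hC
  refine ⟨?_, ?_, ?_⟩
  · unfold E1
    rw [hU, hV, ha, hc]
    unfold KD.Cf KD.L KD.C3 at hC
    field_simp
    linear_combination hC
  · unfold E2
    rw [he, hA, hB]
    have h1 : z 2 / z 0 - z 1 / z 0 * (z 3 / z 0) + (1 + D.A + D.B) * (z 1 / z 0) -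
        D.B * (z 1 / z 0) ^ 2 - D.A = D.Q2 z / z 0 ^ 2 := by
      unfold KD.Q2
      field_simp
    rw [h1]
    field_simp
  · unfold E3
    rw [hm, hA, hB]
    have h1 : (z 2 / z 0 + 2 * D.A * (z 1 / z 0)) * (z 3 / z 0 - 2 * D.B) +
        (D.A + D.B * (z 1 / z 0)) ^ 2 = D.Q3 z / z 0 ^ 2 := by
      unfold KD.Q3
      field_simp
      ring
    rw [h1]
    have h2 : D.e * D.Q3 z = D.m * D.Q2 z := by
      unfold KD.Q at hQ
      linear_combination -hQ
    field_simp
    linear_combination h2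

theorem Q2_vec {w : Fin 5 → N} (h : GenS P w) :
    w 0 * (kd P (w 2)).Q2 (vec w) = (kd P (w 2)).e := by
  have h2 := h.e2
  unfold E2 at h2
  change _ = fe P (w 2) + algebraMap ℂ N P.P2 / fV P (w 2) * fU P (w 2) ^ 2 +
    algebraMap ℂ N P.P0 / fU P (w 2) * fV P (w 2) ^ 2
  rw [← h2]
  simp only [KD.Q2, vec, kd, Matrix.cons_val_zero, Matrix.cons_val_one, Matrix.cons_val]
  ring

theorem Q3_vec {w : Fin 5 → N} (h : GenS P w) :
    w 0 * (kd P (w 2)).Q3 (vec w) = (kd P (w 2)).m := by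
  have h3 := h.e3
  unfold E3 at h3
  change _ = fm P (w 2) + algebraMap ℂ N P.P0 / fU P (w 2) * fc P (w 2) * fV P (w 2) +
    algebraMap ℂ N P.P2 / fV P (w 2) * fa P (w 2) * fU P (w 2) -
    (algebraMap ℂ N P.P0 / fU P (w 2) * fV P (w 2) +
      algebraMap ℂ N P.P2 / fV P (w 2) * fU P (w 2)) ^ 2
  rw [← h3]
  simp only [KD.Q3, vec, kd, Matrix.cons_val_zero, Matrix.cons_val_one, Matrix.cons_val]
  ring

theorem C3_vec {w : Fin 5 → N} (h : GenS P w) :
    w 0 * KD.C3 (vec w) + (kd P (w 2)).L (vec w) = 0 := by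
  have h1 := h.e1
  unfold E1 at h1
  simp only [KD.C3, KD.L, vec, kd, Matrix.cons_val_zero, Matrix.cons_val_one, Matrix.cons_val]
  linear_combination h1

theorem Q_vec {w : Fin 5 → N} (h : GenS P w) : (kd P (w 2)).Q (vec w) = 0 := by
  unfold KD.Q
  rw [← Q2_vec h, ← Q3_vec h]
  ring

theorem Cf_vec {w : Fin 5 → N} (h : GenS P w) : (kd P (w 2)).Cf (vec w) = 0 := by
  unfold KD.Cf
  rw [← Q2_vec h]
  linear_combination (kd P (w 2)).Q2 (vec w) * C3_vec h

end field

end Vale.Agent.P297.H279.K2
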