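import Vale.Agent.P297.H279.K2.Pts
import Vale.Agent.P297.H637.MSpec
import Vale.Agent.P297.H288.KAlg

/-!
The polynomial whose roots are the points of the curve over `y` on the cubic cone, its degree, its
reduction at a place, and the equivariance of the points of the surface.
-/

set_option linter.unusedSectionVars false
set_option linter.unusedVariables false
set_option linter.style.haveILetI false

open IntermediateField Polynomial

namespace Vale.Agent.P297.H279.K2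

open Vale.Agent.P297 Vale.Agent.P297.Gen Vale.Agent.P297.H160.Z2Irr
open Vale.Agent.P297.H637 Vale.Agent.P297.H72 Vale.Agent.P297.H521
open Vale.Agent.P297.H288 (HT)

section poly

variable {R : Type} [CommRing R] (D : KD R)

theorem map_map' {R R' R'' : Type*} (D : KD R) (f : R → R') (g : R' → R'') :
    (D.map f).map g = D.map (fun x => g (f x)) := rfl

theorem map_id' (D : KD R) : D.map (fun x => x) = D := rfl

/-- The polynomial of the cone with vertex `x`. -/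
noncomputable def Rp (x : Fin 4 → R) : R[X] :=
  (D.map (C : R → R[X])).Rf (fun i => C (x i)) ((D.map (C : R → R[X])).gam 1 X)

/-- the polynomial of the tangent plane -/
noncomputable def Bp (x : Fin 4 → R) : R[X] :=
  (D.map (C : R → R[X])).b (fun i => C (x i)) ((D.map (C : R → R[X])).gam 1 X)

/-- the polynomial of the chords -/
noncomputable def Gp (x : Fin 4 → R) : R[X] :=
  (D.map (C : R → R[X])).g9 (fun i => C (x i)) ((D.map (C : R → R[X])).gam 1 X)

/-- the polynomial of the points of the quadric on the plane cubic -/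
noncomputable def Qp : R[X] := (D.map (C : R → R[X])).Q ((D.map (C : R → R[X])).gam 1 X)

theorem map_C_eval (t : R) : (D.map (C : R → R[X])).map (evalRingHom t) = D := by
  cases D
  simp [KD.map]

theorem gam_eval (t : R) :
    (fun i => evalRingHom t ((D.map (C : R → R[X])).gam 1 X i)) = D.gam 1 t := by
  have h := (D.map (C : R → R[X])).map_gam (evalRingHom t) 1 X
  rw [map_C_eval] at h
  rw [h]
  simp

theorem const_eval (t : R) (x : Fin 4 → R) :
    (fun i => evalRingHom t ((C (x i) : R[X]))) = x := by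
  funext i
  simp

theorem eval_Rp (x : Fin 4 → R) (t : R) : (Rp D x).eval t = D.Rf x (D.gam 1 t) := by
  have h := (D.map (C : R → R[X])).map_Rf (evalRingHom t) (fun i => C (x i))
    ((D.map (C : R → R[X])).gam 1 X)
  rw [map_C_eval, gam_eval, const_eval] at h
  exact h

theorem eval_Bp (x : Fin 4 → R) (t : R) : (Bp D x).eval t = D.b x (D.gam 1 t) := by
  have h := (D.map (C : R → R[X])).map_b (evalRingHom t) (fun i => C (x i))
    ((D.map (C : R → R[X])).gam 1 X)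
  rw [map_C_eval, gam_eval, const_eval] at h
  exact h

theorem eval_Gp (x : Fin 4 → R) (t : R) : (Gp D x).eval t = D.g9 x (D.gam 1 t) := by
  have h := (D.map (C : R → R[X])).map_g9 (evalRingHom t) (fun i => C (x i))
    ((D.map (C : R → R[X])).gam 1 X)
  rw [map_C_eval, gam_eval, const_eval] at h
  exact h

theorem eval_Qp (t : R) : (Qp D).eval t = D.Q (D.gam 1 t) := by
  have h := (D.map (C : R → R[X])).map_Q (evalRingHom t) ((D.map (C : R → R[X])).gam 1 X)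
  rw [map_C_eval, gam_eval] at h
  exact h

theorem Rp_eq {x : Fin 4 → R} (hx : D.Cf x = 0) : Rp D x = Bp D x * Gp D x := by
  refine (D.map (C : R → R[X])).Rf_eq ?_
  have h := D.map_Cf (C : R →+* R[X]) x
  rw [hx, map_zero] at h
  exact h.symm

theorem map_Rp {R' : Type} [CommRing R'] (f : R →+* R') (x : Fin 4 → R) :
    (Rp D x).map f = Rp (D.map f) (fun i => f (x i)) := by
  have h := (D.map (C : R → R[X])).map_Rf (mapRingHom f) (fun i => C (x i))
    ((D.map (C : R → R[X])).gam 1 X)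
  have h1 : (D.map (C : R → R[X])).map (mapRingHom f) = (D.map f).map (C : R' → R'[X]) := by
    cases D
    simp [KD.map]
  have h2 : (fun i => mapRingHom f ((D.map (C : R → R[X])).gam 1 X i)) =
      ((D.map f).map (C : R' → R'[X])).gam 1 X := by
    rw [KD.map_gam, h1]
    simp
  have h3 : (fun i => mapRingHom f ((C (x i) : R[X]))) = fun i => C (f (x i)) := by
    funext i
    simp
  rw [h1, h2, h3] at h
  exact h

theorem map_Qp {R' : Type} [CommRing R'] (f : R →+* R') :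
    (Qp D).map f = Qp (D.map f) := by
  have h := (D.map (C : R → R[X])).map_Q (mapRingHom f) ((D.map (C : R → R[X])).gam 1 X)
  have h1 : (D.map (C : R → R[X])).map (mapRingHom f) = (D.map f).map (C : R' → R'[X]) := by
    cases D
    simp [KD.map]
  have h2 : (fun i => mapRingHom f ((D.map (C : R → R[X])).gam 1 X i)) =
      ((D.map f).map (C : R' → R'[X])).gam 1 X := by
    rw [KD.map_gam, h1]
    simp
  rw [h1, h2] at h
  exact h

end poly

section degree

variable {R : Type} [CommRing R] (D : KD R)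

theorem ht_gam (i : Fin 4) : HT ((D.map (C : R → R[X])).gam 1 X i) 3 (D.gam 0 1 i) := by
  have hC : ∀ z : R, HT (C z : R[X]) 0 z := fun z => HT.C z
  have hX : HT (X : R[X]) 1 1 := HT.X
  have h1 : HT (C D.U ^ 2 - C D.V ^ 2 * X ^ 2 : R[X]) 2 (0 - D.V ^ 2 * 1 ^ 2) :=
    ((((hC D.U).pow 2).cast (by norm_num)).up (by norm_num : 0 < 2)).sub
      ((((hC D.V).pow 2).mul (hX.pow 2)).cast (by norm_num))
  have h2 : HT (C D.a * C D.U + C D.c * C D.V * X : R[X]) 1 (0 + D.c * D.V * 1) :=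
    ((((hC D.a).mul (hC D.U)).cast (by norm_num)).up (by norm_num : 0 < 1)).add
      ((((hC D.c).mul (hC D.V)).mul hX).cast (by norm_num))
  fin_cases i
  · have h3 : ((D.map (C : R → R[X])).gam 1 X 0) = C D.U ^ 2 - C D.V ^ 2 * X ^ 2 := by
      change 1 * ((C D.U) ^ 2 * 1 ^ 2 - (C D.V) ^ 2 * X ^ 2) = _
      ring
    have h4 : D.gam 0 1 0 = 0 := by simp [KD.gam]
    change HT ((D.map (C : R → R[X])).gam 1 X 0) 3 (D.gam 0 1 0)
    rw [h3, h4]
    exact h1.up (by norm_num)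
  · have h3 : ((D.map (C : R → R[X])).gam 1 X 1) = X * (C D.U ^ 2 - C D.V ^ 2 * X ^ 2) := by
      change X * ((C D.U) ^ 2 * 1 ^ 2 - (C D.V) ^ 2 * X ^ 2) = _
      ring
    change HT ((D.map (C : R → R[X])).gam 1 X 1) 3 (D.gam 0 1 1)
    rw [h3]
    refine (((hX.mul h1).cast (by norm_num)).val ?_)
    simp [KD.gam]
  · have h3 : ((D.map (C : R → R[X])).gam 1 X 2) = X ^ 2 * (C D.a * C D.U + C D.c * C D.V * X) := by
      simp only [KD.gam, KD.map, Matrix.cons_val]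
      ring
    change HT ((D.map (C : R → R[X])).gam 1 X 2) 3 (D.gam 0 1 2)
    rw [h3]
    refine ((((hX.pow 2).mul h2).cast (by norm_num)).val ?_)
    simp [KD.gam]
  · have h3 : ((D.map (C : R → R[X])).gam 1 X 3) = C D.a * C D.U + C D.c * C D.V * X := by
      simp only [KD.gam, KD.map, Matrix.cons_val]
      ring
    have h4 : D.gam 0 1 3 = 0 := by simp [KD.gam]
    change HT ((D.map (C : R → R[X])).gam 1 X 3) 3 (D.gam 0 1 3)
    rw [h3, h4]
    exact h2.up (by norm_num)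

variable {v w : Fin 4 → R[X]} {v' w' : Fin 4 → R} {n m : ℕ}

theorem ht_Q2 (hv : ∀ i, HT (v i) n (v' i)) :
    HT ((D.map (C : R → R[X])).Q2 v) (2 * n) (D.Q2 v') := by
  have hC : ∀ z : R, HT (C z : R[X]) 0 z := fun z => HT.C z
  have e : ∀ i j, HT (v i * v j) (2 * n) (v' i * v' j) := fun i j =>
    ((hv i).mul (hv j)).cast (by ring)
  have h := (((((e 0 2).sub (e 1 3)).add (((((HT.one (F := R)).add (hC D.A)).add (hC D.B)).mul
    (e 0 1)).cast (by ring : 0 + 2 * n = 2 * n))).sub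
    (((hC D.B).mul (e 1 1)).cast (by ring : 0 + 2 * n = 2 * n))).sub
    (((hC D.A).mul (e 0 0)).cast (by ring : 0 + 2 * n = 2 * n)))
  have e1 : (D.map (C : R → R[X])).Q2 v = v 0 * v 2 - v 1 * v 3 +
      (1 + C D.A + C D.B) * (v 0 * v 1) - C D.B * (v 1 * v 1) - C D.A * (v 0 * v 0) := by
    simp only [KD.Q2, KD.map]
    ring
  rw [e1]
  refine h.val ?_
  simp only [KD.Q2]
  ring

theorem ht_Q3 (hv : ∀ i, HT (v i) n (v' i)) :
    HT ((D.map (C : R → R[X])).Q3 v) (2 * n) (D.Q3 v') := by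
  have hC : ∀ z : R, HT (C z : R[X]) 0 z := fun z => HT.C z
  have e : ∀ i j, HT (v i * v j) (2 * n) (v' i * v' j) := fun i j =>
    ((hv i).mul (hv j)).cast (by ring)
  have k : ∀ (z : R) i j, HT (C z * (v i * v j)) (2 * n) (z * (v' i * v' j)) := fun z i j =>
    ((hC z).mul (e i j)).cast (by ring)
  have h := (((((e 2 3).sub (k (2 * D.B) 0 2)).add (k (2 * D.A) 1 3)).sub
    (k (2 * D.A * D.B) 0 1)).add (k (D.A ^ 2) 0 0)).add (k (D.B ^ 2) 1 1)
  have e1 : (D.map (C : R → R[X])).Q3 v = v 2 * v 3 - C (2 * D.B) * (v 0 * v 2) +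
      C (2 * D.A) * (v 1 * v 3) - C (2 * D.A * D.B) * (v 0 * v 1) + C (D.A ^ 2) * (v 0 * v 0) +
      C (D.B ^ 2) * (v 1 * v 1) := by
    simp only [KD.Q3, KD.map, C_mul, C_pow, map_ofNat]
    ring
  rw [e1]
  refine h.val ?_
  simp only [KD.Q3]
  ring

theorem ht_b2 (hv : ∀ i, HT (v i) n (v' i)) (hw : ∀ i, HT (w i) m (w' i)) :
    HT ((D.map (C : R → R[X])).b2 v w) (n + m) (D.b2 v' w') := by
  have hC : ∀ z : R, HT (C z : R[X]) 0 z := fun z => HT.C z
  have k : ∀ (z : R) i j, HT (C z * (v i * w j)) (n + m) (z * (v' i * w' j)) := fun z i j =>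
    ((hC z).mul ((hv i).mul (hw j))).cast (by ring)
  have e : ∀ i j, HT (v i * w j) (n + m) (v' i * w' j) := fun i j => (hv i).mul (hw j)
  have h := ((((((((e 0 2).add (e 2 0)).sub (e 1 3)).sub (e 3 1)).add
    (k (1 + D.A + D.B) 0 1)).add (k (1 + D.A + D.B) 1 0)).sub (k (2 * D.B) 1 1)).sub
    (k (2 * D.A) 0 0))
  have e1 : (D.map (C : R → R[X])).b2 v w = v 0 * w 2 + v 2 * w 0 - v 1 * w 3 - v 3 * w 1 +
      C (1 + D.A + D.B) * (v 0 * w 1) + C (1 + D.A + D.B) * (v 1 * w 0) -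
      C (2 * D.B) * (v 1 * w 1) - C (2 * D.A) * (v 0 * w 0) := by
    simp only [KD.b2, KD.map, C_mul, C_add, C_1, map_ofNat]
    ring
  rw [e1]
  refine h.val ?_
  simp only [KD.b2]
  ring

theorem ht_b3 (hv : ∀ i, HT (v i) n (v' i)) (hw : ∀ i, HT (w i) m (w' i)) :
    HT ((D.map (C : R → R[X])).b3 v w) (n + m) (D.b3 v' w') := by
  have hC : ∀ z : R, HT (C z : R[X]) 0 z := fun z => HT.C z
  have k : ∀ (z : R) i j, HT (C z * (v i * w j)) (n + m) (z * (v' i * w' j)) := fun z i j =>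
    ((hC z).mul ((hv i).mul (hw j))).cast (by ring)
  have e : ∀ i j, HT (v i * w j) (n + m) (v' i * w' j) := fun i j => (hv i).mul (hw j)
  have h := ((((((((((e 2 3).add (e 3 2)).sub (k (2 * D.B) 0 2)).sub (k (2 * D.B) 2 0)).add
    (k (2 * D.A) 1 3)).add (k (2 * D.A) 3 1)).sub (k (2 * D.A * D.B) 0 1)).sub
    (k (2 * D.A * D.B) 1 0)).add (k (2 * D.A ^ 2) 0 0)).add (k (2 * D.B ^ 2) 1 1))
  have e1 : (D.map (C : R → R[X])).b3 v w = v 2 * w 3 + v 3 * w 2 - C (2 * D.B) * (v 0 * w 2) -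
      C (2 * D.B) * (v 2 * w 0) + C (2 * D.A) * (v 1 * w 3) + C (2 * D.A) * (v 3 * w 1) -
      C (2 * D.A * D.B) * (v 0 * w 1) - C (2 * D.A * D.B) * (v 1 * w 0) +
      C (2 * D.A ^ 2) * (v 0 * w 0) + C (2 * D.B ^ 2) * (v 1 * w 1) := by
    simp only [KD.b3, KD.map, C_mul, C_pow, map_ofNat]
    ring
  rw [e1]
  refine h.val ?_
  simp only [KD.b3]
  ring

theorem ht_C31 (hv : ∀ i, HT (v i) n (v' i)) (hw : ∀ i, HT (w i) m (w' i)) :
    HT (KD.C31 v w) (2 * n + m) (KD.C31 v' w') := by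
  have hC : ∀ z : R, HT (C z : R[X]) 0 z := fun z => HT.C z
  have k : ∀ (z : R) i j l, HT (C z * (v i * v j * w l)) (2 * n + m)
      (z * (v' i * v' j * w' l)) := fun z i j l =>
    ((hC z).mul (((hv i).mul (hv j)).mul (hw l))).cast (by ring)
  have h := (((k 1 1 1 3).add (k 2 3 1 1)).sub (k 1 0 0 2)).sub (k 2 2 0 0)
  have e1 : KD.C31 v w = C 1 * (v 1 * v 1 * w 3) + C 2 * (v 3 * v 1 * w 1) -
      C 1 * (v 0 * v 0 * w 2) - C 2 * (v 2 * v 0 * w 0) := by
    simp only [KD.C31, C_1, map_ofNat]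
    ring
  rw [e1]
  refine h.val ?_
  simp only [KD.C31]
  ring

theorem ht_L (hv : ∀ i, HT (v i) n (v' i)) :
    HT ((D.map (C : R → R[X])).L v) n (D.L v') := by
  have hC : ∀ z : R, HT (C z : R[X]) 0 z := fun z => HT.C z
  have k : ∀ (z : R) i, HT (C z * v i) n (z * v' i) := fun z i =>
    ((hC z).mul (hv i)).cast (by ring)
  have h := (((k (D.U ^ 2) 3).sub (k (D.V ^ 2) 2)).sub (k (D.a * D.U) 0)).sub
    (k (D.c * D.V) 1)
  have e1 : (D.map (C : R → R[X])).L v = C (D.U ^ 2) * v 3 - C (D.V ^ 2) * v 2 -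
      C (D.a * D.U) * v 0 - C (D.c * D.V) * v 1 := by
    simp only [KD.L, KD.map, C_mul, C_pow]
  rw [e1]
  exact h

theorem ht_C3 (hv : ∀ i, HT (v i) n (v' i)) : HT (KD.C3 v) (3 * n) (KD.C3 v') := by
  have h := ((((hv 3).mul ((hv 1).mul (hv 1))).cast (by ring : n + (n + n) = 3 * n)).sub
    (((hv 2).mul ((hv 0).mul (hv 0))).cast (by ring : n + (n + n) = 3 * n)))
  have e1 : KD.C3 v = v 3 * (v 1 * v 1) - v 2 * (v 0 * v 0) := by
    simp only [KD.C3]
    ring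
  rw [e1]
  refine h.val ?_
  simp only [KD.C3]
  ring

theorem ht_Q (hv : ∀ i, HT (v i) n (v' i)) :
    HT ((D.map (C : R → R[X])).Q v) (2 * n) (D.Q v') := by
  have hC : ∀ z : R, HT (C z : R[X]) 0 z := fun z => HT.C z
  exact (((hC D.m).mul (ht_Q2 D hv)).cast (by ring)).sub
    (((hC D.e).mul (ht_Q3 D hv)).cast (by ring))

theorem ht_b (hv : ∀ i, HT (v i) n (v' i)) (hw : ∀ i, HT (w i) m (w' i)) :
    HT ((D.map (C : R → R[X])).b v w) (n + m) (D.b v' w') := by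
  have hC : ∀ z : R, HT (C z : R[X]) 0 z := fun z => HT.C z
  exact (((hC D.m).mul (ht_b2 D hv hw)).cast (by ring)).sub
    (((hC D.e).mul (ht_b3 D hv hw)).cast (by ring))

theorem ht_Cf (hv : ∀ i, HT (v i) n (v' i)) :
    HT ((D.map (C : R → R[X])).Cf v) (3 * n) (D.Cf v') := by
  have hC : ∀ z : R, HT (C z : R[X]) 0 z := fun z => HT.C z
  exact (((hC D.e).mul (ht_C3 hv)).cast (by ring)).add
    (((ht_Q2 D hv).mul (ht_L D hv)).cast (by ring))

theorem ht_C1 (hv : ∀ i, HT (v i) n (v' i)) (hw : ∀ i, HT (w i) m (w' i)) :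
    HT ((D.map (C : R → R[X])).C1 v w) (2 * n + m) (D.C1 v' w') := by
  have hC : ∀ z : R, HT (C z : R[X]) 0 z := fun z => HT.C z
  exact ((((hC D.e).mul (ht_C31 hv hw)).cast (by ring)).add
    ((ht_Q2 D hv).mul (ht_L D hw))).add
    (((ht_b2 D hv hw).mul (ht_L D hv)).cast (by ring))

/-- **The degree of the polynomial of the cone.** -/
theorem ht_Rp (x : Fin 4 → R) : HT (Rp D x) 12 (D.Rf x (D.gam 0 1)) := by
  have hx : ∀ i, HT (C (x i) : R[X]) 0 (x i) := fun i => HT.C (x i)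
  have hg := ht_gam D
  have h1 := ht_Q D hg
  have h2 := ht_b D hx hg
  have h3 := ht_Cf D hx
  have h4 := ht_C1 D hx hg
  have h5 := ht_C1 D hg hx
  exact ((((h1.pow 2).mul h3).cast (by norm_num)).sub
    (((h1.mul h2).mul h4).cast (by norm_num))).add
    (((h2.pow 2).mul h5).cast (by norm_num))

theorem ht_Bp (x : Fin 4 → R) : HT (Bp D x) 3 (D.b x (D.gam 0 1)) :=
  (ht_b D (fun i => HT.C (x i)) (ht_gam D)).cast (by norm_num)

theorem ht_Gp (x : Fin 4 → R) : HT (Gp D x) 9 (D.g9 x (D.gam 0 1)) := by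
  have hx : ∀ i, HT (C (x i) : R[X]) 0 (x i) := fun i => HT.C (x i)
  have hg := ht_gam D
  have h1 := ht_Q D hg
  have h2 := ht_b D hx hg
  have h4 := ht_C1 D hx hg
  have h5 := ht_C1 D hg hx
  exact ((h2.mul h5).cast (by norm_num)).sub ((h1.mul h4).cast (by norm_num))

end degree

section val

variable {N N₁ : Type} [Field N] [Field N₁] [Algebra N N₁] (P : Plc N N₁)

/-- the pairs of an element and its value -/
def valRing : Subring (N₁ × N) where
  carrier := {z | P.Val z.1 z.2}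
  mul_mem' := fun ha hb => ha.mul hb
  one_mem' := P.val_one
  add_mem' := fun ha hb => ha.add hb
  zero_mem' := P.val_zero
  neg_mem' := fun ha => ha.neg

/-- the pairs of a polynomial and its reduction -/
def pvalRing : Subring (N₁[X] × N[X]) where
  carrier := {z | PVal P z.1 z.2}
  mul_mem' := fun ha hb => ha.mul hb
  one_mem' := PVal.one
  add_mem' := fun ha hb => ha.add hb
  zero_mem' := by
    intro n
    rw [Prod.fst_zero, Prod.snd_zero, coeff_zero, coeff_zero]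
    exact P.val_zero
  neg_mem' := fun ha => ha.neg

variable {P}

/-- Values of the data. -/
structure VD (P : Plc N N₁) (D₁ : KD N₁) (D : KD N) : Prop where
  U : P.Val D₁.U D.U
  V : P.Val D₁.V D.V
  a : P.Val D₁.a D.a
  c : P.Val D₁.c D.c
  A : P.Val D₁.A D.A
  B : P.Val D₁.B D.B
  e : P.Val D₁.e D.e
  m : P.Val D₁.m D.m

theorem VD.map (D : KD N) : VD P (D.map (algebraMap N N₁)) D :=
  ⟨P.val_const _, P.val_const _, P.val_const _, P.val_const _, P.val_const _, P.val_const _,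
    P.val_const _, P.val_const _⟩

/-- the datum over the ring of pairs -/
def VD.kd {D₁ : KD N₁} {D : KD N} (h : VD P D₁ D) : KD (valRing P) :=
  ⟨⟨(D₁.U, D.U), h.U⟩, ⟨(D₁.V, D.V), h.V⟩, ⟨(D₁.a, D.a), h.a⟩, ⟨(D₁.c, D.c), h.c⟩,
    ⟨(D₁.A, D.A), h.A⟩, ⟨(D₁.B, D.B), h.B⟩, ⟨(D₁.e, D.e), h.e⟩, ⟨(D₁.m, D.m), h.m⟩⟩

/-- the first projection -/
def prj1 (P : Plc N N₁) : valRing P →+* N₁ := (RingHom.fst N₁ N).comp (valRing P).subtype

/-- the second projection -/
def prj2 (P : Plc N N₁) : valRing P →+* N := (RingHom.snd N₁ N).comp (valRing P).subtype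

theorem val_prj (z : valRing P) : P.Val (prj1 P z) (prj2 P z) := z.2

theorem pval_prj (F : (valRing P)[X]) : PVal P (F.map (prj1 P)) (F.map (prj2 P)) := by
  intro n
  rw [coeff_map, coeff_map]
  exact val_prj _

variable {D₁ : KD N₁} {D : KD N}

/-- **The reduction of the polynomial of the cone.** -/
theorem pval_Rp (hD : VD P D₁ D) {x₁ : Fin 4 → N₁} {x : Fin 4 → N}
    (hx : ∀ i, P.Val (x₁ i) (x i)) : PVal P (Rp D₁ x₁) (Rp D x) := by
  have h := pval_prj (Rp hD.kd (fun i => (⟨(x₁ i, x i), hx i⟩ : valRing P)))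
  rw [map_Rp, map_Rp] at h
  exact h

theorem pval_Qp (hD : VD P D₁ D) : PVal P (Qp D₁) (Qp D) := by
  have h := pval_prj (Qp hD.kd)
  rw [map_Qp, map_Qp] at h
  exact h

theorem val_zz (hD : VD P D₁ D) {x₁ : Fin 4 → N₁} {x : Fin 4 → N}
    (hx : ∀ i, P.Val (x₁ i) (x i)) {t₁ : N₁} {t : N} (ht : P.Val t₁ t) (i : Fin 4) :
    P.Val (D₁.zz x₁ (D₁.gam 1 t₁) i) (D.zz x (D.gam 1 t) i) := by
  let x' : Fin 4 → valRing P := fun i => ⟨(x₁ i, x i), hx i⟩
  let t' : valRing P := ⟨(t₁, t), ht⟩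
  have h := val_prj (hD.kd.zz x' (hD.kd.gam 1 t') i)
  have h1 := congrFun (hD.kd.map_zz (prj1 P) x' (hD.kd.gam 1 t')) i
  have h2 := congrFun (hD.kd.map_zz (prj2 P) x' (hD.kd.gam 1 t')) i
  rw [KD.map_gam, map_one] at h1 h2
  have h3 : prj1 P (hD.kd.zz x' (hD.kd.gam 1 t') i) = D₁.zz x₁ (D₁.gam 1 t₁) i := h1
  have h4 : prj2 P (hD.kd.zz x' (hD.kd.gam 1 t') i) = D.zz x (D.gam 1 t) i := h2
  rw [h3, h4] at h
  exact h

theorem val_Q2 (hD : VD P D₁ D) {x₁ : Fin 4 → N₁} {x : Fin 4 → N}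
    (hx : ∀ i, P.Val (x₁ i) (x i)) : P.Val (D₁.Q2 x₁) (D.Q2 x) := by
  let x' : Fin 4 → valRing P := fun i => ⟨(x₁ i, x i), hx i⟩
  have h := val_prj (hD.kd.Q2 x')
  rw [KD.map_Q2, KD.map_Q2] at h
  exact h

theorem val_num (hD : VD P D₁ D) {k₁ s₁ : N₁} {k s : N} (hk : P.Val k₁ k) (hs : P.Val s₁ s) :
    P.Val (D₁.num k₁ s₁) (D.num k s) := by
  have h := val_prj (hD.kd.num (⟨(k₁, k), hk⟩ : valRing P) ⟨(s₁, s), hs⟩)
  rw [KD.map_num, KD.map_num] at h
  exact h

theorem val_den (hD : VD P D₁ D) {k₁ s₁ : N₁} {k s : N} (hk : P.Val k₁ k) (hs : P.Val s₁ s) :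
    P.Val (D₁.den k₁ s₁) (D.den k s) := by
  have h := val_prj (hD.kd.den (⟨(k₁, k), hk⟩ : valRing P) ⟨(s₁, s), hs⟩)
  rw [KD.map_den, KD.map_den] at h
  exact h

theorem val_Rf (hD : VD P D₁ D) {x₁ g₁ : Fin 4 → N₁} {x g : Fin 4 → N}
    (hx : ∀ i, P.Val (x₁ i) (x i)) (hg : ∀ i, P.Val (g₁ i) (g i)) :
    P.Val (D₁.Rf x₁ g₁) (D.Rf x g) := by
  have h := val_prj (hD.kd.Rf (fun i => (⟨(x₁ i, x i), hx i⟩ : valRing P))
    (fun i => ⟨(g₁ i, g i), hg i⟩))
  rw [KD.map_Rf, KD.map_Rf] at h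
  exact h

theorem val_gam (hD : VD P D₁ D) {α₁ β₁ : N₁} {α β : N} (hα : P.Val α₁ α) (hβ : P.Val β₁ β)
    (i : Fin 4) : P.Val (D₁.gam α₁ β₁ i) (D.gam α β i) := by
  have h := val_prj (hD.kd.gam (⟨(α₁, α), hα⟩ : valRing P) ⟨(β₁, β), hβ⟩ i)
  have h1 := congrFun (hD.kd.map_gam (prj1 P) (⟨(α₁, α), hα⟩ : valRing P) ⟨(β₁, β), hβ⟩) i
  have h2 := congrFun (hD.kd.map_gam (prj2 P) (⟨(α₁, α), hα⟩ : valRing P) ⟨(β₁, β), hβ⟩) i
  have h3 : prj1 P (hD.kd.gam (⟨(α₁, α), hα⟩ : valRing P) ⟨(β₁, β), hβ⟩ i) =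
    D₁.gam α₁ β₁ i := h1
  have h4 : prj2 P (hD.kd.gam (⟨(α₁, α), hα⟩ : valRing P) ⟨(β₁, β), hβ⟩ i) =
    D.gam α β i := h2
  rw [h3, h4] at h
  exact h

/-- **The value of the point of the surface.** -/
theorem val_toW {Pa : Par} [Algebra ℂ N] [Algebra ℂ N₁] [IsScalarTower ℂ N N₁] {y : N}
    {z₁ : Fin 4 → N₁} {z : Fin 4 → N} (hz : ∀ i, P.Val (z₁ i) (z i)) (h0 : z 0 ≠ 0)
    (h2 : (kd Pa y).Q2 z ≠ 0) (j : Fin 5) :
    P.Val (toW Pa (algebraMap N N₁ y) z₁ j) (toW Pa y z j) := by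
  have hk : (kd Pa y).map (algebraMap N N₁) = kd Pa (algebraMap N N₁ y) :=
    map_kd Pa (IsScalarTower.toAlgHom ℂ N N₁) y
  have hD : VD P (kd Pa (algebraMap N N₁ y)) (kd Pa y) := by
    rw [← hk]
    exact VD.map _
  fin_cases j
  · exact (hD.e.mul ((hz 0).pow 2)).div (val_Q2 hD hz) h2
  · exact (hz 1).div (hz 0) h0
  · exact P.val_const _
  · exact (hz 2).div (hz 0) h0
  · exact (hz 3).div (hz 0) h0

end val

section pt

variable {K N N' : Type} [Field K] [Algebra ℂ K] [Field N] [Algebra ℂ N] [Field N'] [Algebra ℂ N']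
  {P : Vale.Agent.P297.H160.Z2Irr.Par} {x : Fin 5 → K}

/-- Change of the field of values, for all vectors. -/
theorem map_pt_all (hx : Vale.Agent.P297.H160.Z2Irr.IsFF P x) (w : Fin 5 → N) (σ : N →ₐ[ℂ] N') :
    Finsupp.mapDomain (fun φ : K →ₐ[ℂ] N => σ.comp φ) (Vale.Agent.P297.H160.Z2Irr.pt x w) =
      Vale.Agent.P297.H160.Z2Irr.pt x (fun j => σ (w j)) := by
  by_cases h : ∃ φ : K →ₐ[ℂ] N, ∀ j, φ (x j) = w j
  · obtain ⟨φ, hφ⟩ := h
    rw [Vale.Agent.P297.H160.Z2Irr.pt_eq hx hφ, Finsupp.mapDomain_single]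
    refine (Vale.Agent.P297.H160.Z2Irr.pt_eq hx fun j => ?_).symm
    rw [AlgHom.comp_apply, hφ]
  · have h1 : Vale.Agent.P297.H160.Z2Irr.pt x w = 0 := by
      unfold Vale.Agent.P297.H160.Z2Irr.pt
      rw [dif_neg h]
    have h2 : Vale.Agent.P297.H160.Z2Irr.pt x (fun j => σ (w j)) = 0 := by
      unfold Vale.Agent.P297.H160.Z2Irr.pt
      rw [dif_neg]
      rintro ⟨ψ, hψ⟩
      apply h
      have h3 : ∀ z, ψ z ∈ σ.fieldRange := by
        have h4 : (⊤ : IntermediateField ℂ K) ≤ σ.fieldRange.comap ψ := by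
          rw [← hx.top, IntermediateField.adjoin_le_iff]
          rintro _ ⟨j, rfl⟩
          exact ⟨w j, (hψ j).symm⟩
        intro z
        exact h4 trivial
      let e : N ≃ₐ[ℂ] σ.fieldRange := AlgEquiv.ofInjectiveField σ
      let ψ' : K →ₐ[ℂ] σ.fieldRange := ψ.codRestrict σ.fieldRange.toSubalgebra h3
      refine ⟨e.symm.toAlgHom.comp ψ', fun j => ?_⟩
      change e.symm (ψ' (x j)) = w j
      rw [AlgEquiv.symm_apply_eq]
      exact Subtype.ext (hψ j)
    rw [h1, h2, Finsupp.mapDomain_zero]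

end pt

end Vale.Agent.P297.H279.K2
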