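import Vale.Agent.P297.H279.K2.Deg
import Vale.Agent.P297.H521.RulV
import Vale.Agent.P297.H54.CubE
import Vale.Agent.P297.H600.Stab

/-!
The family of the cycles cut on the curve over `y` by the cubic cones, its equivariance, its
relations, and its degenerate member with vertex on the curve.
-/

set_option linter.unusedSectionVars false
set_option linter.unusedVariables false
set_option linter.style.haveILetI false

open IntermediateField Polynomial

namespace Vale.Agent.P297.H279.K2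

open Vale.Agent.P297 Vale.Agent.P297.Gen Vale.Agent.P297.H160.Z2Irr
open Vale.Agent.P297.H637 Vale.Agent.P297.H72 Vale.Agent.P297.H521 Vale.Agent.P297.H279
open Vale.Agent.P297.H729 Vale.Agent.P297.H839 Vale.Agent.P297.H600
open Vale.Agent.P297.H288 (HT)

section vecs

variable {N : Type} [Field N] (D : KD N)

/-- the point of the quadric with the coordinates `k`, `s` -/
noncomputable def xv (k s : N) : Fin 4 → N := ![1, k, s, D.num k s / D.den k s]

theorem Q_xv {k s : N} (h : D.den k s ≠ 0) : D.Q (xv D k s) = 0 := by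
  rw [xv, KD.Q_eq]
  field_simp
  ring

theorem map_xv {N' : Type} [Field N'] (f : N →+* N') (k s : N) :
    (fun i => f (xv D k s i)) = xv (D.map f) (f k) (f s) := by
  funext i
  fin_cases i
  · exact map_one f
  · rfl
  · rfl
  · change f (D.num k s / D.den k s) = (D.map f).num (f k) (f s) / (D.map f).den (f k) (f s)
    rw [map_div₀, KD.map_num, KD.map_den]

end vecs

section fam

variable {K : Type} [Field K] [Algebra ℂ K]

/-- the points on the cone with vertex `x` -/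
noncomputable def Wf (P : Par) (x₀ : Fin 5 → K) {L : Type} [Field L] [Algebra ℂ L] (y : L)
    (x : Fin 4 → L) : (K →ₐ[ℂ] L) →₀ ℤ :=
  ((Rp (kd P y) x).roots.map fun t =>
    H160.Z2Irr.pt x₀ (toW P y ((kd P y).zz x ((kd P y).gam 1 t)))).sum

/-- **The family.** -/
noncomputable def Vf (P : Par) (x₀ : Fin 5 → K) (L : Type) [Field L] [Algebra ℂ L] [IsAlgClosed L]
    (c : Fin 1 → L) (v : Fin 2 → L) : (K →ₐ[ℂ] L) →₀ ℤ :=
  Wf P x₀ (c 0) (xv (kd P (c 0)) (v 0) (v 1))

variable {P : Par} {x₀ : Fin 5 → K}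

theorem Wf_map (hx : H160.Z2Irr.IsFF P x₀) {L L' : Type} [Field L] [Algebra ℂ L] [IsAlgClosed L]
    [Field L'] [Algebra ℂ L'] (g : L →ₐ[ℂ] L') (y : L) (x : Fin 4 → L) :
    Finsupp.mapDomain (fun φ : K →ₐ[ℂ] L => g.comp φ) (Wf P x₀ y x) =
      Wf P x₀ (g y) (fun i => g (x i)) := by
  have h1 : (Rp (kd P y) x).map (g : L →+* L') = Rp (kd P (g y)) (fun i => g (x i)) := by
    have h := map_Rp (kd P y) (g : L →+* L') x
    have h2 : (kd P y).map (g : L →+* L') = kd P (g y) := map_kd P g y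
    rw [h2] at h
    exact h
  unfold Wf
  rw [sum_roots_map g _ _ (fun t => H160.Z2Irr.pt x₀ (toW P (g y)
    ((kd P (g y)).zz (fun i => g (x i)) ((kd P (g y)).gam 1 t)))) ?_, h1]
  intro t _
  rw [map_pt_all hx, map_toW]
  have h2 : (kd P y).map (g : L →+* L') = kd P (g y) := map_kd P g y
  have h3 := (kd P y).map_zz (g : L →+* L') x ((kd P y).gam 1 t)
  rw [KD.map_gam, h2, map_one] at h3
  have h4 : (fun i => g ((kd P y).zz x ((kd P y).gam 1 t) i)) =
      (kd P (g y)).zz (fun i => g (x i)) ((kd P (g y)).gam 1 (g t)) := h3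
  rw [h4]

theorem Vf_map (hx : H160.Z2Irr.IsFF P x₀) {L L' : Type} [Field L] [Algebra ℂ L] [IsAlgClosed L]
    [Field L'] [Algebra ℂ L'] [IsAlgClosed L'] (g : L →ₐ[ℂ] L') (c : Fin 1 → L)
    (v : Fin 2 → L) :
    Finsupp.mapDomain (fun φ : K →ₐ[ℂ] L => g.comp φ) (Vf P x₀ L c v) =
      Vf P x₀ L' (fun i => g (c i)) (fun i => g (v i)) := by
  have h2 : (kd P (c 0)).map (g : L →+* L') = kd P (g (c 0)) := map_kd P g (c 0)
  have h3 : (fun i => g (xv (kd P (c 0)) (v 0) (v 1) i)) =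
      xv (kd P (g (c 0))) (g (v 0)) (g (v 1)) := by
    have h := map_xv (kd P (c 0)) (g : L →+* L') (v 0) (v 1)
    rw [h2] at h
    exact h
  unfold Vf
  rw [Wf_map hx, h3]

end fam

section rel

variable {N : Type} [Field N] [Algebra ℂ N] [IsAlgClosed N]

/-- Cycles that are defined over a field of rational functions are relations. -/
theorem rel_of_fixed {K : Type} [Field K] [Algebra ℂ K] {m : ℤ} {d : ℕ}
    (hd : Algebra.trdeg ℂ N = d) {n : ℕ}
    {a : Fin n → N} (ha : AlgebraicIndependent ℂ a) (v : (K →ₐ[ℂ] N) →₀ ℤ)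
    (hv : ∀ g : N ≃ₐ[ℂ] N, (∀ i, g (a i) = a i) →
      Finsupp.mapDomain (fun φ : K →ₐ[ℂ] N => g.toAlgHom.comp φ) v = v) : v ∈ H72.Rel m K N := by
  classical
  have h1 : AlgebraicIndepOn ℂ id (Set.range a) := ha.coe_range
  obtain ⟨t, hst, ht⟩ := exists_isTranscendenceBasis_superset h1
  have hcard : Cardinal.mk t = d := by
    rw [← hd]
    exact ht.cardinalMk_eq_trdeg
  have hcard' : Cardinal.mk (Fin d) = Cardinal.mk t := by
    rw [hcard, Cardinal.mk_fin]
  obtain ⟨e⟩ := Cardinal.eq.1 hcard'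
  let u : Fin d → N := fun i => (e i : N)
  have hu : AlgebraicIndependent ℂ u := ht.1.comp e e.injective
  have hru : Set.range u = t := by
    ext z
    constructor
    · rintro ⟨i, rfl⟩
      exact (e i).2
    · intro hz
      exact ⟨e.symm ⟨z, hz⟩, by simp [u]⟩
  have hrt : Set.range ((↑) : t → N) = t := Subtype.range_coe
  refine Rel.of_stable (stable_of_fixed (IntermediateField.adjoin ℂ t)
    ⟨d, u, hu, by rw [hru]⟩ ?_ v fun g hg => ?_)
  · have h2 := ht.isAlgebraic_field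
    rwa [hrt] at h2
  · exact hv g fun i => hg _ (IntermediateField.subset_adjoin _ _ (hst ⟨i, rfl⟩))

end rel

section lemB

variable {N : Type} [Field N] [Algebra ℂ N] {P : Par} {M : IntermediateField ℂ N} {y : N}

theorem Q_mem (hy : y ∈ M) {v : Fin 4 → N} (hv : ∀ i, v i ∈ M) : (kd P y).Q v ∈ M := by
  have h := (kd P (⟨y, hy⟩ : M)).map_Q (M.val : M →+* N) (fun i => ⟨v i, hv i⟩)
  have h2 : (kd P (⟨y, hy⟩ : M)).map (M.val : M →+* N) = kd P y := map_kd P M.val _
  rw [h2] at h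
  have h3 : (kd P y).Q v = (((kd P (⟨y, hy⟩ : M)).Q (fun i => ⟨v i, hv i⟩) : M) : N) := h.symm
  rw [h3]
  exact SetLike.coe_mem _

theorem b_mem (hy : y ∈ M) {v w : Fin 4 → N} (hv : ∀ i, v i ∈ M) (hw : ∀ i, w i ∈ M) :
    (kd P y).b v w ∈ M := by
  have h := (kd P (⟨y, hy⟩ : M)).map_b (M.val : M →+* N) (fun i => ⟨v i, hv i⟩)
    (fun i => ⟨w i, hw i⟩)
  have h2 : (kd P (⟨y, hy⟩ : M)).map (M.val : M →+* N) = kd P y := map_kd P M.val _
  rw [h2] at h
  have h3 : (kd P y).b v w = (((kd P (⟨y, hy⟩ : M)).b (fun i => ⟨v i, hv i⟩)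
    (fun i => ⟨w i, hw i⟩) : M) : N) := h.symm
  rw [h3]
  exact SetLike.coe_mem _

theorem gam_mem (hy : y ∈ M) {α β : N} (hα : α ∈ M) (hβ : β ∈ M) (i : Fin 4) :
    (kd P y).gam α β i ∈ M := by
  have h := congrFun ((kd P (⟨y, hy⟩ : M)).map_gam (M.val : M →+* N) ⟨α, hα⟩ ⟨β, hβ⟩) i
  have h2 : (kd P (⟨y, hy⟩ : M)).map (M.val : M →+* N) = kd P y := map_kd P M.val _
  rw [h2] at h
  have h3 : (kd P y).gam α β i = (((kd P (⟨y, hy⟩ : M)).gam ⟨α, hα⟩ ⟨β, hβ⟩ i : M) : N) := h.symm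
  rw [h3]
  exact SetLike.coe_mem _

/-- **The other points on the cone with a generic vertex are not rational.** -/
theorem not_rat [IsAlgClosed N] (hM : ∀ u, IsAlgebraic M u → u ∈ M) (hyM : y ∈ M)
    {u : Fin 2 → N} (hu : Free M u) {t : N} (hden : (kd P y).den (u 0) (u 1) ≠ 0)
    (hQ : (kd P y).Q ((kd P y).gam 1 t) ≠ 0) :
    ¬ Rat M ((kd P y).zz (xv (kd P y) (u 0) (u 1)) ((kd P y).gam 1 t)) := by
  rintro ⟨c, v, hv, hz⟩
  have hxQ := Q_xv (kd P y) hden
  have hx0 : xv (kd P y) (u 0) (u 1) 0 = 1 := rfl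
  have hx1 : xv (kd P y) (u 0) (u 1) 1 = u 0 := rfl
  have hx2 : xv (kd P y) (u 0) (u 1) 2 = u 1 := rfl
  have hzQ := (kd P y).Q_zz (g := (kd P y).gam 1 t) hxQ
  have hcl := clo_closed M {t}
  have hMM : M ≤ clo M {t} := le_clo _ _
  have htM : t ∈ clo M {t} := subset_clo _ _ rfl
  have hg : ∀ i, (kd P y).gam 1 t i ∈ clo M {t} := gam_mem (hMM hyM) (one_mem _) htM
  have hq : (kd P y).Q ((kd P y).gam 1 t) ∈ clo M {t} := Q_mem (hMM hyM) hg
  have hb' : (kd P y).b v ((kd P y).gam 1 t) ∈ clo M {t} :=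
    b_mem (hMM hyM) (fun i => hMM (hv i)) hg
  -- the equations
  have e : ∀ i, (kd P y).Q ((kd P y).gam 1 t) * xv (kd P y) (u 0) (u 1) i =
      c * v i + (kd P y).b (xv (kd P y) (u 0) (u 1)) ((kd P y).gam 1 t) *
        (kd P y).gam 1 t i := by
    intro i
    have h := hz i
    unfold KD.zz KD.lc at h
    linear_combination h
  have key : ∀ i, xv (kd P y) (u 0) (u 1) i ∈ clo M {t} := by
    by_cases hc : c = 0
    · subst hc
      have e0 := e 0
      rw [hx0, mul_one, zero_mul, zero_add] at e0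
      have hg0 : (kd P y).gam 1 t 0 ≠ 0 := by
        intro h
        apply hQ
        rw [e0, h, mul_zero]
      intro i
      have h1 : xv (kd P y) (u 0) (u 1) i = (kd P y).gam 1 t i / (kd P y).gam 1 t 0 := by
        rw [eq_div_iff hg0]
        apply mul_left_cancel₀ hQ
        rw [← mul_assoc, e i]
        linear_combination (-(kd P y).gam 1 t i) * e0
      rw [h1]
      exact div_mem (hg i) (hg 0)
    · have hvQ : (kd P y).Q v = 0 := by
        have h1 : (kd P y).zz (xv (kd P y) (u 0) (u 1)) ((kd P y).gam 1 t) =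
            KD.lc c v 0 v := by
          funext i
          rw [hz i]
          unfold KD.lc
          ring
        rw [h1, KD.Q_lc] at hzQ
        have h2 : c ^ 2 * (kd P y).Q v = 0 := by linear_combination hzQ
        exact (mul_eq_zero.1 h2).resolve_left (pow_ne_zero 2 hc)
      have h3 : KD.lc ((kd P y).Q ((kd P y).gam 1 t)) (xv (kd P y) (u 0) (u 1)) 0
          (xv (kd P y) (u 0) (u 1)) = KD.lc c v
          ((kd P y).b (xv (kd P y) (u 0) (u 1)) ((kd P y).gam 1 t)) ((kd P y).gam 1 t) := by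
        funext i
        unfold KD.lc
        linear_combination e i
      have h4 := congrArg (kd P y).Q h3
      rw [KD.Q_lc, KD.Q_lc, hxQ, hvQ] at h4
      obtain ⟨q, hqq⟩ : ∃ q, q = (kd P y).Q ((kd P y).gam 1 t) := ⟨_, rfl⟩
      obtain ⟨β, hβ⟩ : ∃ β, β = (kd P y).b (xv (kd P y) (u 0) (u 1)) ((kd P y).gam 1 t) :=
        ⟨_, rfl⟩
      obtain ⟨b', hbb⟩ : ∃ b', b' = (kd P y).b v ((kd P y).gam 1 t) := ⟨_, rfl⟩
      rw [← hqq, ← hβ, ← hbb] at h4
      rw [← hqq] at hQ hq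
      rw [← hbb] at hb'
      rw [← hqq, ← hβ] at e
      have h5 : β * (c * b' + β * q) = 0 := by linear_combination -h4
      have e0 := e 0
      rw [hx0, mul_one] at e0
      rcases mul_eq_zero.1 h5 with h6 | h6
      · have hv0 : v 0 ≠ 0 := by
          intro h
          apply hQ
          rw [e0, h, h6]
          ring
        intro i
        have h7 : xv (kd P y) (u 0) (u 1) i = v i / v 0 := by
          rw [eq_div_iff hv0]
          apply mul_left_cancel₀ hQ
          rw [← mul_assoc, e i, h6]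
          rw [h6] at e0
          linear_combination (-v i) * e0
        rw [h7]
        exact div_mem (hMM (hv i)) (hMM (hv 0))
      · have hd : q * v 0 - b' * (kd P y).gam 1 t 0 ≠ 0 := by
          intro h
          have h8 : q * q = 0 := by
            linear_combination q * e0 + (kd P y).gam 1 t 0 * h6 + c * h
          exact hQ (mul_self_eq_zero.1 h8)
        intro i
        have h7 : xv (kd P y) (u 0) (u 1) i = (q * v i - b' * (kd P y).gam 1 t i) /
            (q * v 0 - b' * (kd P y).gam 1 t 0) := by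
          rw [eq_div_iff hd]
          apply mul_left_cancel₀ (pow_ne_zero 2 hQ)
          have e1 : q * (q * xv (kd P y) (u 0) (u 1) i) =
              c * (q * v i - b' * (kd P y).gam 1 t i) := by
            rw [e i]
            linear_combination (kd P y).gam 1 t i * h6
          have e2 : q * q = c * (q * v 0 - b' * (kd P y).gam 1 t 0) := by
            linear_combination q * e0 + (kd P y).gam 1 t 0 * h6
          linear_combination (q * v 0 - b' * (kd P y).gam 1 t 0) * e1 -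
            (q * v i - b' * (kd P y).gam 1 t i) * e2
        rw [h7]
        exact div_mem (sub_mem (mul_mem hq (hMM (hv i))) (mul_mem hb' (hg i)))
          (sub_mem (mul_mem hq (hMM (hv 0))) (mul_mem hb' (hg 0)))
  have k0 : u 0 ∈ clo M {t} := by
    have := key 1
    rwa [hx1] at this
  have k1 : u 1 ∈ clo M {t} := by
    have := key 2
    rwa [hx2] at this
  have n0 : u 0 ∉ M := fun h => hu 0 (le_clo _ _ h)
  have h1 : t ∈ clo M {u 0} := exchange hM k0 n0
  have h2 : clo M {t} ≤ clo M {u 0} :=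
    clo_le (clo_closed _ _) (le_clo _ _) (Set.singleton_subset_iff.2 h1)
  apply hu 1
  refine clo_mono le_rfl ?_ (h2 k1)
  rintro _ rfl
  exact ⟨0, by simp, rfl⟩

end lemB

section spec

variable {K N N₁ : Type} [Field K] [Algebra ℂ K] [Field N] [Algebra ℂ N] [IsAlgClosed N]
  [Field N₁] [Algebra ℂ N₁] [Algebra N N₁] [IsScalarTower ℂ N N₁] [IsAlgClosed N₁]
  {P : Par} {x₀ : Fin 5 → K} {Pl : Plc N N₁} {y : N}

theorem kd_alg (P : Par) (y : N) : (kd P y).map (algebraMap N N₁) = kd P (algebraMap N N₁ y) :=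
  map_kd P (IsScalarTower.toAlgHom ℂ N N₁) y

theorem vd_kd (P : Par) (y : N) : VD Pl (kd P (algebraMap N N₁ y)) (kd P y) := by
  rw [← kd_alg]
  exact VD.map _

theorem transc_alg (hy : Transcendental ℂ y) : Transcendental ℂ (algebraMap N N₁ y) :=
  (transcendental_algebraMap_iff (algebraMap N N₁).injective).2 hy

theorem IsRoot_iff_Rf (D : KD N) (x : Fin 4 → N) (t : N) :
    (Rp D x).IsRoot t ↔ D.Rf x (D.gam 1 t) = 0 := by
  rw [IsRoot.def, eval_Rp]

/-- **Points near a generic point of the cone.** -/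
theorem spec_point (h0 : P.P0 ≠ 0) (h2 : P.P2 ≠ 0) (hx : H160.Z2Irr.IsFF P x₀)
    (hy : Transcendental ℂ y) {u : Fin 2 → N₁} (hu : Free (img N N₁) u) {x : Fin 4 → N}
    (hux : ∀ i, Pl.Val (xv (kd P (algebraMap N N₁ y)) (u 0) (u 1) i) (x i))
    (hden : (kd P (algebraMap N N₁ y)).den (u 0) (u 1) ≠ 0) {t₁ : N₁} {t : N}
    (ht : Pl.Val t₁ t)
    (hr₁ : (Rp (kd P (algebraMap N N₁ y)) (xv (kd P (algebraMap N N₁ y)) (u 0) (u 1))).IsRoot t₁)
    (hr : (Rp (kd P y) x).IsRoot t)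
    (hQ : (kd P y).Q ((kd P y).gam 1 t) = 0 →
      (kd P y).b x ((kd P y).gam 1 t) ≠ 0 ∧ (kd P y).C1 ((kd P y).gam 1 t) x ≠ 0)
    (hQp : Qp (kd P y) ≠ 0)
    (hg : GenS P (toW P y ((kd P y).zz x ((kd P y).gam 1 t)))) :
    (H160.Z2Irr.pt x₀ (toW P (algebraMap N N₁ y) ((kd P (algebraMap N N₁ y)).zz
      (xv (kd P (algebraMap N N₁ y)) (u 0) (u 1)) ((kd P (algebraMap N N₁ y)).gam 1 t₁))),
      H160.Z2Irr.pt x₀ (toW P y ((kd P y).zz x ((kd P y).gam 1 t)))) ∈ SpecC K Pl := by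
  have hyM : algebraMap N N₁ y ∈ img N N₁ := mem_img.2 ⟨y, rfl⟩
  rw [IsRoot_iff_Rf] at hr hr₁
  -- the quadric does not vanish
  have hQ₁ : (kd P (algebraMap N N₁ y)).Q ((kd P (algebraMap N N₁ y)).gam 1 t₁) ≠ 0 := by
    intro h
    have h3 : (Qp (kd P (algebraMap N N₁ y))).IsRoot t₁ := by
      rw [IsRoot.def, eval_Qp]
      exact h
    rw [← kd_alg P y, ← map_Qp] at h3
    have h4 : t₁ ∈ ((Qp (kd P y)).map (algebraMap N N₁)).roots :=
      (mem_roots ((Polynomial.map_ne_zero_iff (algebraMap N N₁).injective).2 hQp)).2 h3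
    rw [Polynomial.Splits.roots_map (IsAlgClosed.splits _), Multiset.mem_map] at h4
    obtain ⟨t', ht', rfl⟩ := h4
    have h5 : t = t' := ht.unique (Pl.val_const t')
    subst h5
    have h6 : (kd P y).Q ((kd P y).gam 1 t) = 0 := by
      rw [← eval_Qp]
      exact (mem_roots hQp).1 ht'
    obtain ⟨h7, h8⟩ := hQ h6
    unfold KD.Rf at hr
    rw [h6] at hr
    have h9 : (kd P y).b x ((kd P y).gam 1 t) ^ 2 * (kd P y).C1 ((kd P y).gam 1 t) x = 0 := by
      linear_combination hr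
    exact mul_ne_zero (pow_ne_zero 2 h7) h8 h9
  have hg₁ : GenS P (toW P (algebraMap N N₁ y) ((kd P (algebraMap N N₁ y)).zz
      (xv (kd P (algebraMap N N₁ y)) (u 0) (u 1)) ((kd P (algebraMap N N₁ y)).gam 1 t₁))) := by
    refine genS_toW h0 h2 (img_closed (N := N)) (transc_alg hy) hyM ?_ ?_
      (not_rat (img_closed (N := N)) hyM hu hden hQ₁)
    · exact KD.Q_zz _ (Q_xv _ hden)
    · rw [KD.Cf_zz _ (KD.Cf_gam _ _ _), hr₁, mul_zero]
  obtain ⟨φ₁, hφ₁⟩ := hg₁.exists_phi hx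
  obtain ⟨φ₀, hφ₀⟩ := hg.exists_phi hx
  rw [H160.Z2Irr.pt_eq hx hφ₁, H160.Z2Irr.pt_eq hx hφ₀]
  have hz0 : (kd P y).zz x ((kd P y).gam 1 t) 0 ≠ 0 := by
    intro h
    apply hg.nx
    change (kd P y).e * (kd P y).zz x ((kd P y).gam 1 t) 0 ^ 2 / _ = 0
    rw [h]
    simp
  have hQ2 : (kd P y).Q2 ((kd P y).zz x ((kd P y).gam 1 t)) ≠ 0 := by
    intro h
    apply hg.nx
    change _ / (kd P y).Q2 ((kd P y).zz x ((kd P y).gam 1 t)) = 0
    rw [h, div_zero]
  refine SpecC.single_of_gens hx.top ?_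
  rintro _ ⟨j, rfl⟩
  rw [hφ₁, hφ₀]
  exact val_toW (fun i => val_zz (vd_kd P y) hux ht i) hz0 hQ2 j

end spec

section main

variable {K N : Type} [Field K] [Algebra ℂ K] [Field N] [Algebra ℂ N] [IsAlgClosed N]
  {P : Par} {x₀ : Fin 5 → K} {m : ℤ}

theorem natDegree_of_ht {R : Type} [CommRing R] {p : R[X]} {n : ℕ} {a : R} (h : HT p n a)
    (ha : a ≠ 0) : p.natDegree = n := by
  refine le_antisymm h.deg ?_
  exact le_natDegree_of_ne_zero (by rw [h.top]; exact ha)

/-- **The degenerate member of the family, with vertex on the curve.** -/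
theorem spec_main (h0 : P.P0 ≠ 0) (h2 : P.P2 ≠ 0) (hx : H160.Z2Irr.IsFF P x₀)
    {w : Fin 5 → N} (hw : GenS P w) (hy : Transcendental ℂ (w 2))
    (hden : (kd P (w 2)).den (w 1) (w 3) ≠ 0)
    (hlead : (kd P (w 2)).Rf (vec w) ((kd P (w 2)).gam 0 1) ≠ 0)
    (hQ : ∀ t, (kd P (w 2)).Q ((kd P (w 2)).gam 1 t) = 0 →
      (kd P (w 2)).b (vec w) ((kd P (w 2)).gam 1 t) ≠ 0 ∧
        (kd P (w 2)).C1 ((kd P (w 2)).gam 1 t) (vec w) ≠ 0)
    (hgen : ∀ t, (Rp (kd P (w 2)) (vec w)).IsRoot t →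
      GenS P (toW P (w 2) ((kd P (w 2)).zz (vec w) ((kd P (w 2)).gam 1 t))))
    {F : IntermediateField ℂ N} (hF : w 2 ∈ F) {v : Fin 2 → N} (hv : Free F v) :
    Wf P x₀ (w 2) (vec w) - Vf P x₀ N ![w 2] v ∈ H72.Rel m K N := by
  have hdeg : (Rp (kd P (w 2)) (vec w)).natDegree = 12 := natDegree_of_ht (ht_Rp _ _) hlead
  have hR0 : Rp (kd P (w 2)) (vec w) ≠ 0 := by
    intro h
    rw [h, natDegree_zero] at hdeg
    exact absurd hdeg (by norm_num)
  have hQp : Qp (kd P (w 2)) ≠ 0 := by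
    intro h
    obtain ⟨t, ht⟩ := IsAlgClosed.exists_root (Rp (kd P (w 2)) (vec w)) (by
      rw [degree_eq_natDegree hR0, hdeg]
      norm_num)
    have h3 : (kd P (w 2)).Q ((kd P (w 2)).gam 1 t) = 0 := by
      rw [← eval_Qp, h, eval_zero]
    obtain ⟨h7, h8⟩ := hQ t h3
    rw [IsRoot_iff_Rf] at ht
    unfold KD.Rf at ht
    rw [h3] at ht
    exact mul_ne_zero (pow_ne_zero 2 h7) h8 (by linear_combination ht)
  refine multi_specC (K := K) (m := m) (r := 1) (n := 2) (fun L _ _ _ c v => Vf P x₀ L c v)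
    (fun L L' _ _ _ _ _ _ g c v => Vf_map hx g c v) ![w 2] ![w 1, w 3] (fun _ => 0) _ ?_
    (F := F) (fun i => by fin_cases i; exact hF) hv
  intro N₁ _ _ _ _ _ Pl l s hl0 hl hs hfree
  set u : Fin 2 → N₁ := fun i => algebraMap N N₁ (![w 1, w 3] i) + l * s i with hu
  have hu0 : Pl.Val (u 0) (w 1) := by
    have h := (Pl.val_const (w 1)).add (hl.mul (hs 0))
    rw [mul_zero, add_zero] at h
    exact h
  have hu1 : Pl.Val (u 1) (w 3) := by
    have h := (Pl.val_const (w 3)).add (hl.mul (hs 1))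
    rw [mul_zero, add_zero] at h
    exact h
  have hVD : VD Pl (kd P (algebraMap N N₁ (w 2))) (kd P (w 2)) := vd_kd P (w 2)
  have hvd := val_den hVD hu0 hu1
  have hvn := val_num hVD hu0 hu1
  have hden₁ : (kd P (algebraMap N N₁ (w 2))).den (u 0) (u 1) ≠ 0 := hvd.ne_zero hden
  have h4 : w 4 = (kd P (w 2)).num (w 1) (w 3) / (kd P (w 2)).den (w 1) (w 3) := by
    rw [eq_div_iff hden]
    have h := Q_vec hw
    unfold vec at h
    rw [KD.Q_eq] at h
    linear_combination -h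
  have hux : ∀ i, Pl.Val (xv (kd P (algebraMap N N₁ (w 2))) (u 0) (u 1) i) (vec w i) := by
    intro i
    fin_cases i
    · exact Pl.val_one
    · exact hu0
    · exact hu1
    · change Pl.Val _ (w 4)
      rw [h4]
      exact hvn.div hvd hden
  have hPV := pval_Rp hVD hux
  have hdeg₁ : (Rp (kd P (algebraMap N N₁ (w 2)))
      (xv (kd P (algebraMap N N₁ (w 2))) (u 0) (u 1))).natDegree = 12 := by
    refine natDegree_of_ht (ht_Rp _ _) ?_
    refine (val_Rf hVD hux (fun i => val_gam hVD Pl.val_zero Pl.val_one i)).ne_zero hlead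
  have hroots := roots_val' hPV hR0 (hdeg₁.trans hdeg.symm)
  have hrel := rel_map_vl hroots.1
  rw [← hroots.2] at hrel
  refine SpecC.multiset hrel ?_
  intro t₁ ht₁ t ht hval
  have hr₁ := isRoot_of_mem_roots ht₁
  have hr := isRoot_of_mem_roots ht
  exact spec_point h0 h2 hx hy hfree hux hden₁ hval hr₁ hr (hQ t) hQp (hgen t hr)

end main

end Vale.Agent.P297.H279.K2
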