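import Vale.Agent.P297.H279.K2.Fam

/-!
The generic points of the surface from the chords of the curves of the pencil: the main theorem of
the block, modulo the chords.
-/

set_option linter.unusedSectionVars false
set_option linter.unusedVariables false
set_option linter.style.haveILetI false

open IntermediateField Polynomial

namespace Vale.Agent.P297.H279.K2

open Vale.Agent.P297 Vale.Agent.P297.Gen Vale.Agent.P297.H160.Z2Irr
open Vale.Agent.P297.H637 Vale.Agent.P297.H72 Vale.Agent.P297.H521 Vale.Agent.P297.H279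
open Vale.Agent.P297.H729 Vale.Agent.P297.H839 Vale.Agent.P297.H600

section abstract

/-- Sums of elements with a multiple of `p + f t` in a subgroup. -/
theorem exists_smul_sum {G : Type} [AddCommGroup G] (A : AddSubgroup G) {α : Type} (p : G)
    (f : α → G) (S : Multiset α) (h : ∀ t ∈ S, ∃ e : ℤ, e ≠ 0 ∧ e • (p + f t) ∈ A) :
    ∃ e : ℤ, e ≠ 0 ∧ e • (Multiset.card S • p + (S.map f).sum) ∈ A := by
  induction S using Multiset.induction_on with
  | empty => exact ⟨1, one_ne_zero, by simp⟩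
  | cons a S ih =>
    obtain ⟨e, he, hm⟩ := ih fun t ht => h t (Multiset.mem_cons_of_mem ht)
    obtain ⟨d, hd, hn⟩ := h a (Multiset.mem_cons_self _ _)
    refine ⟨d * e, mul_ne_zero hd he, ?_⟩
    have h1 : (d * e) • (Multiset.card (a ::ₘ S) • p + ((a ::ₘ S).map f).sum) =
        e • (d • (p + f a)) + d • (e • (Multiset.card S • p + (S.map f).sum)) := by
      rw [Multiset.card_cons, Multiset.map_cons, Multiset.sum_cons]
      module
    rw [h1]
    exact A.add_mem (A.zsmul_mem hn e) (A.zsmul_mem hm d)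

end abstract

section main

variable {K N : Type} [Field K] [Algebra ℂ K] [Field N] [Algebra ℂ N] [IsAlgClosed N]
  {P : Par} {x₀ : Fin 5 → K} {m : ℤ}

theorem GenS.tr_y (h0 : P.P0 ≠ 0) {w : Fin 5 → N} (hw : GenS P w) : Transcendental ℂ (w 2) :=
  (H288.indep_iff.1 (hw.ind_yk h0)).1

theorem Q2_vec_ne (h0 : P.P0 ≠ 0) {w : Fin 5 → N} (hw : GenS P w) :
    (kd P (w 2)).Q2 (vec w) ≠ 0 := by
  intro h
  apply e_ne (GenS.tr_y h0 hw)
  rw [← Q2_vec hw, h, mul_zero]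

theorem vec_toW (h0 : P.P0 ≠ 0) {w : Fin 5 → N} (hw : GenS P w) {c : N} (hc : c ≠ 0)
    {y : N} (hy : w 2 = y) : toW P y (fun i => c * vec w i) = w := by
  subst hy
  have hQ2 := Q2_vec hw
  have hn := Q2_vec_ne h0 hw
  have h1 : (kd P (w 2)).Q2 (fun i => c * vec w i) = c ^ 2 * (kd P (w 2)).Q2 (vec w) := by
    unfold KD.Q2
    ring
  funext j
  fin_cases j
  · change (kd P (w 2)).e * (c * 1) ^ 2 / (kd P (w 2)).Q2 (fun i => c * vec w i) = w 0
    rw [h1, ← hQ2]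
    field_simp
  · change c * w 1 / (c * 1) = w 1
    field_simp
  · rfl
  · change c * w 3 / (c * 1) = w 3
    field_simp
  · change c * w 4 / (c * 1) = w 4
    field_simp

/-- The generic member is a relation. -/
theorem exists_Vf (h4 : Algebra.trdeg ℂ N = 4) (hx : H160.Z2Irr.IsFF P x₀) {y k : N}
    (hyk : AlgebraicIndependent ℂ ![y, k]) :
    ∃ v : Fin 2 → N, Free (cl0 {y}) v ∧ Vf P x₀ N ![y] v ∈ H72.Rel m K N := by
  obtain ⟨s, hs⟩ := C8.exists_notMem_three h4 y k k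
  have h3 : AlgebraicIndependent ℂ ![y, k, s] := by
    have h := C8.indep_snoc hyk (x := s) (fun h => hs (by
      refine cl0_le (cl0_closed _) ?_ h
      rintro _ ⟨i, rfl⟩
      fin_cases i
      · exact subset_cl0 _ (by simp)
      · exact subset_cl0 _ (by simp)))
    convert h using 1
    funext i
    fin_cases i <;> rfl
  refine ⟨![k, s], H54.free_of_ind h3, ?_⟩
  refine rel_of_fixed h4 h3 _ fun g hg => ?_
  have h := Vf_map hx g.toAlgHom ![y] ![k, s]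
  rw [h]
  congr 1
  · funext i
    fin_cases i
    exact hg 0
  · funext i
    fin_cases i
    · exact hg 1
    · exact hg 2

/-- **Block [K], modulo the chords.** -/
theorem exists_smul_pt (h0 : P.P0 ≠ 0) (h2 : P.P2 ≠ 0) (h4 : Algebra.trdeg ℂ N = 4)
    (hx : H160.Z2Irr.IsFF P x₀) {w : Fin 5 → N} (hw : GenS P w)
    (hden : (kd P (w 2)).den (w 1) (w 3) ≠ 0)
    (hlb : (kd P (w 2)).b (vec w) ((kd P (w 2)).gam 0 1) ≠ 0)
    (hlg : (kd P (w 2)).g9 (vec w) ((kd P (w 2)).gam 0 1) ≠ 0)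
    (hQ : ∀ t, (kd P (w 2)).Q ((kd P (w 2)).gam 1 t) = 0 →
      (kd P (w 2)).b (vec w) ((kd P (w 2)).gam 1 t) ≠ 0 ∧
        (kd P (w 2)).C1 ((kd P (w 2)).gam 1 t) (vec w) ≠ 0)
    (hch : ∀ t, (kd P (w 2)).g9 (vec w) ((kd P (w 2)).gam 1 t) = 0 →
      (∃ (w' : Fin 5 → N) (c : N), GenS P w' ∧ w' 2 = w 2 ∧ c ≠ 0 ∧
        ((kd P (w 2)).zz (vec w) ((kd P (w 2)).gam 1 t) = fun i => c * vec w' i) ∧
        ∃ e : ℤ, e ≠ 0 ∧ e • (H160.Z2Irr.pt x₀ w + H160.Z2Irr.pt x₀ w') ∈ H72.Rel m K N) ∨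
      (∃ e : ℤ, e ≠ 0 ∧ e • H160.Z2Irr.pt x₀ w ∈ H72.Rel m K N)) :
    ∃ e : ℤ, e ≠ 0 ∧ e • H160.Z2Irr.pt x₀ w ∈ H72.Rel m K N := by
  by_cases hcase : ∃ e : ℤ, e ≠ 0 ∧ e • H160.Z2Irr.pt x₀ w ∈ H72.Rel m K N
  · exact hcase
  exfalso
  have hch' : ∀ t, (kd P (w 2)).g9 (vec w) ((kd P (w 2)).gam 1 t) = 0 →
      (∃ (w' : Fin 5 → N) (c : N), GenS P w' ∧ w' 2 = w 2 ∧ c ≠ 0 ∧
        ((kd P (w 2)).zz (vec w) ((kd P (w 2)).gam 1 t) = fun i => c * vec w' i) ∧
        ∃ e : ℤ, e ≠ 0 ∧ e • (H160.Z2Irr.pt x₀ w + H160.Z2Irr.pt x₀ w') ∈ H72.Rel m K N) :=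
    fun t ht => (hch t ht).resolve_right hcase
  apply hcase
  have hy := GenS.tr_y h0 hw
  have hCf : (kd P (w 2)).Cf (vec w) = 0 := Cf_vec hw
  have hlead : (kd P (w 2)).Rf (vec w) ((kd P (w 2)).gam 0 1) ≠ 0 := by
    rw [KD.Rf_eq _ hCf]
    exact mul_ne_zero hlb hlg
  -- the points over the roots of `b`
  have hroot_b : ∀ t, (kd P (w 2)).b (vec w) ((kd P (w 2)).gam 1 t) = 0 →
      toW P (w 2) ((kd P (w 2)).zz (vec w) ((kd P (w 2)).gam 1 t)) = w := by
    intro t ht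
    have hq : (kd P (w 2)).Q ((kd P (w 2)).gam 1 t) ≠ 0 := fun h => (hQ t h).1 ht
    have h1 : (kd P (w 2)).zz (vec w) ((kd P (w 2)).gam 1 t) =
        fun i => (kd P (w 2)).Q ((kd P (w 2)).gam 1 t) * vec w i := by
      funext i
      unfold KD.zz KD.lc
      rw [ht]
      ring
    rw [h1]
    exact vec_toW h0 hw hq rfl
  have hgen : ∀ t, (Rp (kd P (w 2)) (vec w)).IsRoot t →
      GenS P (toW P (w 2) ((kd P (w 2)).zz (vec w) ((kd P (w 2)).gam 1 t))) := by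
    intro t ht
    rw [IsRoot_iff_Rf, KD.Rf_eq _ hCf] at ht
    rcases mul_eq_zero.1 ht with h | h
    · rw [hroot_b t h]
      exact hw
    · obtain ⟨w', c, hw', hy', hc, hz, -⟩ := hch' t h
      rw [hz, vec_toW h0 hw' hc hy']
      exact hw'
  obtain ⟨v, hv, hVrel⟩ := exists_Vf (m := m) h4 hx (hw.ind_yk h0)
  have hspec := spec_main (m := m) h0 h2 hx hw hy hden hlead hQ hgen
    (F := cl0 {w 2}) (subset_cl0 _ rfl) hv
  have hW : Wf P x₀ (w 2) (vec w) ∈ H72.Rel m K N := by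
    have h := (H72.Rel m K N).add_mem hspec hVrel
    rwa [sub_add_cancel] at h
  -- the two factors
  have hR0 : Bp (kd P (w 2)) (vec w) * Gp (kd P (w 2)) (vec w) ≠ 0 := by
    rw [← Rp_eq _ hCf]
    exact (ht_Rp (kd P (w 2)) (vec w)).ne_zero hlead
  have hcB : Multiset.card (Bp (kd P (w 2)) (vec w)).roots = 3 := by
    rw [(splits_iff_card_roots).1 (IsAlgClosed.splits _)]
    exact natDegree_of_ht (ht_Bp _ _) hlb
  have hcG : Multiset.card (Gp (kd P (w 2)) (vec w)).roots = 9 := by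
    rw [(splits_iff_card_roots).1 (IsAlgClosed.splits _)]
    exact natDegree_of_ht (ht_Gp _ _) hlg
  have hsum : Wf P x₀ (w 2) (vec w) = 3 • H160.Z2Irr.pt x₀ w +
      ((Gp (kd P (w 2)) (vec w)).roots.map fun t =>
        H160.Z2Irr.pt x₀ (toW P (w 2) ((kd P (w 2)).zz (vec w) ((kd P (w 2)).gam 1 t)))).sum := by
    unfold Wf
    rw [Rp_eq _ hCf, roots_mul hR0, Multiset.map_add, Multiset.sum_add]
    congr 1
    rw [Multiset.map_congr rfl (g := fun _ => H160.Z2Irr.pt x₀ w) ?_, Multiset.map_const',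
      Multiset.sum_replicate, hcB]
    intro t ht
    have h := isRoot_of_mem_roots ht
    rw [IsRoot.def, eval_Bp] at h
    rw [hroot_b t h]
  obtain ⟨e, he, hE⟩ := exists_smul_sum (H72.Rel m K N) (H160.Z2Irr.pt x₀ w)
    (fun t => H160.Z2Irr.pt x₀ (toW P (w 2) ((kd P (w 2)).zz (vec w) ((kd P (w 2)).gam 1 t))))
    (Gp (kd P (w 2)) (vec w)).roots (by
      intro t ht
      have h := isRoot_of_mem_roots ht
      rw [IsRoot.def, eval_Gp] at h
      obtain ⟨w', c, hw', hy', hc, hz, d, hd, hrel⟩ := hch' t h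
      refine ⟨d, hd, ?_⟩
      rw [hz, vec_toW h0 hw' hc hy']
      exact hrel)
  rw [hcG] at hE
  refine ⟨6 * e, mul_ne_zero (by norm_num) he, ?_⟩
  have h5 := (H72.Rel m K N).sub_mem hE ((H72.Rel m K N).zsmul_mem hW e)
  rw [hsum] at h5
  have h6 : e • (9 • H160.Z2Irr.pt x₀ w + ((Gp (kd P (w 2)) (vec w)).roots.map fun t =>
        H160.Z2Irr.pt x₀ (toW P (w 2) ((kd P (w 2)).zz (vec w) ((kd P (w 2)).gam 1 t)))).sum) -
      e • (3 • H160.Z2Irr.pt x₀ w + ((Gp (kd P (w 2)) (vec w)).roots.map fun t =>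
        H160.Z2Irr.pt x₀ (toW P (w 2) ((kd P (w 2)).zz (vec w) ((kd P (w 2)).gam 1 t)))).sum) =
      (6 * e) • H160.Z2Irr.pt x₀ w := by
    module
  rwa [h6] at h5

end main

end Vale.Agent.P297.H279.K2
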