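import Vale.Agent.P297.H279.K2.Alg
import Vale.Agent.P297.H160.Z2Gen
import Vale.Agent.P297.H721.PtMore
import Vale.Agent.P297.H521.Param

/-!
The points of the curve over `y` in the tricanonical space are generic points of the surface as
soon as they are not proportional to a vector over the closure of `ℂ(y)`.
-/

set_option linter.unusedSectionVars false
set_option linter.unusedVariables false

open IntermediateField Polynomial

namespace Vale.Agent.P297.H279.K2

open Vale.Agent.P297 Vale.Agent.P297.Gen Vale.Agent.P297.H160.Z2Irr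

section closed

variable {N : Type} [Field N] [Algebra ℂ N]

/-- A root of a polynomial of degree at most five with coefficients in a closed field. -/
theorem mem_of_five {M : IntermediateField ℂ N} (hM : ∀ u, IsAlgebraic M u → u ∈ M)
    {a b c d e f x : N} (ha : a ∈ M) (hb : b ∈ M) (hc : c ∈ M) (hd : d ∈ M) (he : e ∈ M)
    (hf : f ∈ M) (h0 : a ≠ 0 ∨ b ≠ 0 ∨ c ≠ 0 ∨ d ≠ 0 ∨ e ≠ 0)
    (h : a * x ^ 5 + b * x ^ 4 + c * x ^ 3 + d * x ^ 2 + e * x + f = 0) : x ∈ M := by
  apply hM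
  have k : ∀ n, (C a * X ^ 5 + C b * X ^ 4 + C c * X ^ 3 + C d * X ^ 2 + C e * X + C f :
      N[X]).coeff n = (if n = 5 then a else 0) + (if n = 4 then b else 0) +
      (if n = 3 then c else 0) + (if n = 2 then d else 0) + (if n = 1 then e else 0) +
      (if n = 0 then f else 0) := by
    intro n
    have h1 : (C e * X : N[X]).coeff n = if n = 1 then e else 0 := by
      have := coeff_C_mul_X_pow e 1 n
      rwa [pow_one] at this
    simp only [coeff_add, coeff_C_mul_X_pow, coeff_C, h1]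
  refine isAlgebraic_of_coeff (p := C a * X ^ 5 + C b * X ^ 4 + C c * X ^ 3 + C d * X ^ 2 +
    C e * X + C f) ?_ ?_ ?_
  · intro n
    rw [k]
    have hi : ∀ (p : Prop) [Decidable p] {z : N}, z ∈ M → (if p then z else 0) ∈ M := by
      intro p _ z hz
      split_ifs
      · exact hz
      · exact zero_mem _
    exact add_mem (add_mem (add_mem (add_mem (add_mem (hi _ ha) (hi _ hb)) (hi _ hc))
      (hi _ hd)) (hi _ he)) (hi _ hf)
  · intro hz
    have k5 := k 5
    have k4 := k 4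
    have k3 := k 3
    have k2 := k 2
    have k1 := k 1
    rw [hz, coeff_zero] at k5 k4 k3 k2 k1
    norm_num at k5 k4 k3 k2 k1
    rcases h0 with h0 | h0 | h0 | h0 | h0
    · exact h0 k5.symm
    · exact h0 k4.symm
    · exact h0 k3.symm
    · exact h0 k2.symm
    · exact h0 k1.symm
  · simp only [eval_add, eval_mul, eval_C, eval_pow, eval_X]
    exact h

theorem mem_of_two {M : IntermediateField ℂ N} (hM : ∀ u, IsAlgebraic M u → u ∈ M)
    {d e f x : N} (hd : d ∈ M) (he : e ∈ M) (hf : f ∈ M) (h0 : d ≠ 0)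
    (h : d * x ^ 2 + e * x + f = 0) : x ∈ M :=
  mem_of_five hM (zero_mem _) (zero_mem _) (zero_mem _) hd he hf
    (Or.inr (Or.inr (Or.inr (Or.inl h0)))) (by linear_combination h)

theorem mem_of_three {M : IntermediateField ℂ N} (hM : ∀ u, IsAlgebraic M u → u ∈ M)
    {c d e f x : N} (hc : c ∈ M) (hd : d ∈ M) (he : e ∈ M) (hf : f ∈ M) (h0 : c ≠ 0)
    (h : c * x ^ 3 + d * x ^ 2 + e * x + f = 0) : x ∈ M :=
  mem_of_five hM (zero_mem _) (zero_mem _) hc hd he hf
    (Or.inr (Or.inr (Or.inl h0))) (by linear_combination h)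

/-- `z` is proportional to a vector over `M`. -/
def Rat (M : IntermediateField ℂ N) (z : Fin 4 → N) : Prop :=
  ∃ (c : N) (f : Fin 4 → N), (∀ i, f i ∈ M) ∧ ∀ i, z i = c * f i

theorem Rat.mono {M M' : IntermediateField ℂ N} (h : M ≤ M') {z : Fin 4 → N} (hz : Rat M z) :
    Rat M' z := by
  obtain ⟨c, f, h1, h2⟩ := hz
  exact ⟨c, f, fun i => h (h1 i), h2⟩

end closed

section mem

variable {N : Type} [Field N] [Algebra ℂ N] {P : Par} {M : IntermediateField ℂ N} {y : N}

theorem kd_mem (hy : y ∈ M) : (kd P y).U ∈ M ∧ (kd P y).V ∈ M ∧ (kd P y).a ∈ M ∧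
    (kd P y).c ∈ M ∧ (kd P y).A ∈ M ∧ (kd P y).B ∈ M ∧ (kd P y).e ∈ M ∧ (kd P y).m ∈ M := by
  have h := map_kd P M.val (⟨y, hy⟩ : M)
  have h0 : M.val ⟨y, hy⟩ = y := rfl
  rw [h0] at h
  rw [← h]
  exact ⟨Subtype.property _, Subtype.property _, Subtype.property _, Subtype.property _,
    Subtype.property _, Subtype.property _, Subtype.property _, Subtype.property _⟩

theorem U_ne' (hy : Transcendental ℂ y) : fU P y ≠ 0 := by
  intro h
  refine hy ⟨X + C P.u, X_add_C_ne_zero _, ?_⟩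
  simpa [fU] using h

theorem V_ne' (hy : Transcendental ℂ y) : fV P y ≠ 0 := by
  intro h
  refine hy ⟨X + C P.v, X_add_C_ne_zero _, ?_⟩
  simpa [fV] using h

theorem fg_ne' (hy : Transcendental ℂ y) : fg P y ≠ 0 := by
  have h1 : fg P (X : ℂ[X]) ≠ 0 := by
    intro hz
    have h2 := natDegree_b0 P
    rw [← fg_eq, hz, natDegree_zero] at h2
    omega
  intro h
  refine hy ⟨fg P X, h1, ?_⟩
  rw [map_fg, aeval_X]
  exact h

theorem e_ne (hy : Transcendental ℂ y) : (kd P y).e ≠ 0 := by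
  have h1 : fU P y * fV P y * (kd P y).e = fg P y := by
    have hU := U_ne' (P := P) hy
    have hV := V_ne' (P := P) hy
    change fU P y * fV P y * (fe P y + algebraMap ℂ N P.P2 / fV P y * fU P y ^ 2 +
      algebraMap ℂ N P.P0 / fU P y * fV P y ^ 2) = _
    unfold fg
    field_simp
  intro h
  rw [h, mul_zero] at h1
  exact fg_ne' hy h1.symm

theorem A_ne (h0 : P.P0 ≠ 0) (hy : Transcendental ℂ y) : (kd P y).A ≠ 0 :=
  div_ne_zero ((map_ne_zero (algebraMap ℂ N)).2 h0) (U_ne' hy)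

theorem B_ne (h2 : P.P2 ≠ 0) (hy : Transcendental ℂ y) : (kd P y).B ≠ 0 :=
  div_ne_zero ((map_ne_zero (algebraMap ℂ N)).2 h2) (V_ne' hy)

end mem

section pts

variable {N : Type} [Field N] [Algebra ℂ N] {P : Par} {M : IntermediateField ℂ N} {y : N}
  {z : Fin 4 → N}

/-- The first coordinate does not vanish. -/
theorem z0_ne (h0 : P.P0 ≠ 0) (h2 : P.P2 ≠ 0) (hM : ∀ u, IsAlgebraic M u → u ∈ M)
    (hy : Transcendental ℂ y) (hyM : y ∈ M) (hQ : (kd P y).Q z = 0) (hC : (kd P y).Cf z = 0)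
    (hz : ¬ Rat M z) : z 0 ≠ 0 := by
  intro hz0
  obtain ⟨mU, mV, ma, mc, mA, mB, me, mm⟩ := kd_mem (P := P) hyM
  have hU : (kd P y).U ≠ 0 := U_ne' hy
  have hV : (kd P y).V ≠ 0 := V_ne' hy
  have hA := A_ne (N := N) h0 hy
  have hB := B_ne (N := N) h2 hy
  have he := e_ne (P := P) hy
  generalize kd P y = D at *
  apply hz
  by_cases hz1 : z 1 = 0
  · have h3 : z 2 * z 3 = 0 := by
      have h4 : D.e * (z 2 * z 3) = 0 := by
        simp only [KD.Q, KD.Q2, KD.Q3, hz0, hz1] at hQ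
        linear_combination -hQ
      exact (mul_eq_zero.1 h4).resolve_left he
    rcases mul_eq_zero.1 h3 with h5 | h5
    · refine ⟨z 3, ![0, 0, 0, 1], ?_, ?_⟩
      · intro i
        fin_cases i
        exacts [zero_mem _, zero_mem _, zero_mem _, one_mem _]
      · intro i
        fin_cases i
        · simpa using hz0
        · simpa using hz1
        · simpa using h5
        · simp
    · refine ⟨z 2, ![0, 0, 1, 0], ?_, ?_⟩
      · intro i
        fin_cases i
        exacts [zero_mem _, zero_mem _, one_mem _, zero_mem _]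
      · intro i
        fin_cases i
        · simpa using hz0
        · simpa using hz1
        · simp
        · simpa using h5
  · obtain ⟨s, hs⟩ : ∃ s, s = z 2 / z 1 := ⟨_, rfl⟩
    obtain ⟨t, ht⟩ : ∃ t, t = z 3 / z 1 := ⟨_, rfl⟩
    have e2 : z 2 = z 1 * s := by rw [hs]; field_simp
    have e3 : z 3 = z 1 * t := by rw [ht]; field_simp
    have q1 : -D.m * (t + D.B) - D.e * (s * t + 2 * D.A * t + D.B ^ 2) = 0 := by
      have h4 : z 1 ^ 2 * (-D.m * (t + D.B) - D.e * (s * t + 2 * D.A * t + D.B ^ 2)) = 0 := by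
        simp only [KD.Q, KD.Q2, KD.Q3, hz0, e2, e3] at hQ
        linear_combination hQ
      exact (mul_eq_zero.1 h4).resolve_left (pow_ne_zero 2 hz1)
    have q2 : D.e * t - (t + D.B) * (D.U ^ 2 * t - D.V ^ 2 * s - D.c * D.V) = 0 := by
      have h4 : z 1 ^ 3 * (D.e * t - (t + D.B) * (D.U ^ 2 * t - D.V ^ 2 * s - D.c * D.V)) =
          0 := by
        simp only [KD.Cf, KD.C3, KD.Q2, KD.L, hz0, e2, e3] at hC
        linear_combination hC
      exact (mul_eq_zero.1 h4).resolve_left (pow_ne_zero 3 hz1)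
    have htB : t + D.B ≠ 0 := by
      intro h5
      rw [h5, zero_mul, sub_zero] at q2
      have h6 : t = 0 := (mul_eq_zero.1 q2).resolve_left he
      rw [h6, zero_add] at h5
      exact hB h5
    have n2 : (2 : N) ∈ M := ofNat_mem M 2
    have htM : t ∈ M := by
      refine mem_of_three hM (c := -(D.e * D.U ^ 2))
        (d := -(D.m * D.V ^ 2) - D.e * (D.B * D.U ^ 2 - D.c * D.V - D.e + 2 * D.A * D.V ^ 2))
        (e := -(2 * D.B * D.m * D.V ^ 2) - D.e * (-(D.B * D.c * D.V) +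
          2 * D.A * D.B * D.V ^ 2 + D.B ^ 2 * D.V ^ 2))
        (f := -(D.m * D.V ^ 2 * D.B ^ 2) - D.e * D.B ^ 3 * D.V ^ 2) ?_ ?_ ?_ ?_ ?_ ?_
      · exact neg_mem (mul_mem me (pow_mem mU 2))
      · exact sub_mem (neg_mem (mul_mem mm (pow_mem mV 2))) (mul_mem me (add_mem (sub_mem
          (sub_mem (mul_mem mB (pow_mem mU 2)) (mul_mem mc mV)) me)
          (mul_mem (mul_mem n2 mA) (pow_mem mV 2))))
      · exact sub_mem (neg_mem (mul_mem (mul_mem (mul_mem n2 mB) mm) (pow_mem mV 2)))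
          (mul_mem me (add_mem (add_mem (neg_mem (mul_mem (mul_mem mB mc) mV))
          (mul_mem (mul_mem (mul_mem n2 mA) mB) (pow_mem mV 2)))
          (mul_mem (pow_mem mB 2) (pow_mem mV 2))))
      · exact sub_mem (neg_mem (mul_mem (mul_mem mm (pow_mem mV 2)) (pow_mem mB 2)))
          (mul_mem (mul_mem me (pow_mem mB 3)) (pow_mem mV 2))
      · exact neg_ne_zero.2 (mul_ne_zero he (pow_ne_zero 2 hU))
      · linear_combination (D.V ^ 2 * (t + D.B)) * q1 + D.e * t * q2
    have hsM : s ∈ M := by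
      have h5 : s = (D.U ^ 2 * t - D.c * D.V - D.e * t / (t + D.B)) / D.V ^ 2 := by
        rw [eq_div_iff (pow_ne_zero 2 hV)]
        field_simp
        linear_combination q2
      rw [h5]
      exact div_mem (sub_mem (sub_mem (mul_mem (pow_mem mU 2) htM) (mul_mem mc mV))
        (div_mem (mul_mem me htM) (add_mem htM mB))) (pow_mem mV 2)
    refine ⟨z 1, ![0, 1, s, t], ?_, ?_⟩
    · intro i
      fin_cases i
      exacts [zero_mem _, one_mem _, hsM, htM]
    · intro i
      fin_cases i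
      · simpa using hz0
      · simp
      · simpa using e2
      · simpa using e3

theorem Q2_ne (h0 : P.P0 ≠ 0) (hy : Transcendental ℂ y) (hQ : (kd P y).Q z = 0)
    (hC : (kd P y).Cf z = 0) (hz0 : z 0 ≠ 0) : (kd P y).Q2 z ≠ 0 := by
  intro hQ2
  have hA := A_ne (N := N) h0 hy
  have he := e_ne (P := P) hy
  generalize kd P y = D at *
  obtain ⟨k, hk⟩ : ∃ k, k = z 1 / z 0 := ⟨_, rfl⟩
  obtain ⟨s, hs⟩ : ∃ s, s = z 2 / z 0 := ⟨_, rfl⟩
  obtain ⟨t, ht⟩ : ∃ t, t = z 3 / z 0 := ⟨_, rfl⟩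
  have e1 : z 1 = z 0 * k := by rw [hk]; field_simp
  have e2 : z 2 = z 0 * s := by rw [hs]; field_simp
  have e3 : z 3 = z 0 * t := by rw [ht]; field_simp
  have h1 : D.Q3 z = 0 := by
    have h2 : D.e * D.Q3 z = 0 := by
      unfold KD.Q at hQ
      rw [hQ2] at hQ
      linear_combination -hQ
    exact (mul_eq_zero.1 h2).resolve_left he
  have h2 : KD.C3 z = 0 := by
    unfold KD.Cf at hC
    rw [hQ2, zero_mul, add_zero] at hC
    exact (mul_eq_zero.1 hC).resolve_left he
  have h3 : s = t * k ^ 2 := by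
    have h4 : z 0 ^ 3 * (s - t * k ^ 2) = 0 := by
      simp only [KD.C3, e1, e2, e3] at h2
      linear_combination -h2
    exact sub_eq_zero.1 ((mul_eq_zero.1 h4).resolve_left (pow_ne_zero 3 hz0))
  subst h3
  have h4 : k * t = D.B * k - D.A := by
    have h5 : z 0 ^ 2 * (k * t + D.A - D.B * k) ^ 2 = 0 := by
      simp only [KD.Q3, e1, e2, e3] at h1
      linear_combination h1
    have h6 := (mul_eq_zero.1 h5).resolve_left (pow_ne_zero 2 hz0)
    have h7 : k * t + D.A - D.B * k = 0 := pow_eq_zero_iff (two_ne_zero) |>.1 h6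
    linear_combination h7
  have h5 : k = 0 := by
    have h6 : z 0 ^ 2 * k = 0 := by
      simp only [KD.Q2, e1, e2, e3] at hQ2
      linear_combination hQ2 - z 0 ^ 2 * (k - 1) * h4
    exact (mul_eq_zero.1 h6).resolve_left (pow_ne_zero 2 hz0)
  rw [h5] at h4
  apply hA
  linear_combination h4

/-- The coordinate `k` is not in the closed field. -/
theorem k_notMem (h0 : P.P0 ≠ 0) (h2 : P.P2 ≠ 0) (hM : ∀ u, IsAlgebraic M u → u ∈ M)
    (hy : Transcendental ℂ y) (hyM : y ∈ M) (hQ : (kd P y).Q z = 0) (hC : (kd P y).Cf z = 0)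
    (hz : ¬ Rat M z) : z 1 / z 0 ∉ M := by
  intro hkM
  have hz0 := z0_ne h0 h2 hM hy hyM hQ hC hz
  have hQ2 := Q2_ne h0 hy hQ hC hz0
  obtain ⟨e1, e2, e3⟩ := toW_E hz0 hQ2 hQ hC
  have hfQ := fQ_eq_zero P (U_ne' hy) (V_ne' hy) e1 e2 e3
  have hXM : toW P y z 0 ∈ M := by
    apply hM
    refine ⟨rQ P (⟨toW P y z 1, hkM⟩ : M) ⟨y, hyM⟩, rQ_ne h0 _ _, ?_⟩
    rw [aeval_def, eval₂_eq_eval_map]
    have h1 : algebraMap M N = (M.val : M →+* N) := rfl
    rw [h1, map_rQ P M.val, eval_rQ]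
    exact hfQ
  have hX0 : toW P y z 0 ≠ 0 :=
    div_ne_zero (mul_ne_zero (e_ne hy) (pow_ne_zero 2 hz0)) hQ2
  obtain ⟨mU, mV, ma, mc, mA, mB, me, mm⟩ := kd_mem (P := P) hyM
  have hU : (kd P y).U ≠ 0 := U_ne' hy
  have n2 : (2 : N) ∈ M := ofNat_mem M 2
  obtain ⟨x, hx⟩ : ∃ x, x = toW P y z 0 := ⟨_, rfl⟩
  obtain ⟨k, hk⟩ : ∃ k, k = z 1 / z 0 := ⟨_, rfl⟩
  obtain ⟨s, hs⟩ : ∃ s, s = z 2 / z 0 := ⟨_, rfl⟩
  obtain ⟨t, ht⟩ : ∃ t, t = z 3 / z 0 := ⟨_, rfl⟩
  rw [← hx] at hXM hX0
  rw [← hk] at hkM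
  have q1 : x * (k ^ 2 * t - s) + (kd P y).U ^ 2 * t - (kd P y).V ^ 2 * s =
      (kd P y).a * (kd P y).U + (kd P y).c * k * (kd P y).V := by
    rw [hx, hk, hs, ht]; exact e1
  have q2 : x * (s - k * t + (1 + (kd P y).A + (kd P y).B) * k - (kd P y).B * k ^ 2 -
      (kd P y).A) = (kd P y).e := by
    rw [hx, hk, hs, ht]; exact e2
  have q3 : x * ((s + 2 * (kd P y).A * k) * (t - 2 * (kd P y).B) +
      ((kd P y).A + (kd P y).B * k) ^ 2) = (kd P y).m := by
    rw [hx, hk, hs, ht]; exact e3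
  have es : z 0 * s = z 2 := by rw [hs]; field_simp
  have et : z 0 * t = z 3 := by rw [ht]; field_simp
  have ek : z 0 * k = z 1 := by rw [hk]; field_simp
  generalize kd P y = D at *
  have hst : s ∈ M ∧ t ∈ M := by
    by_cases hk0 : k = 0
    · subst hk0
      have hsM : s ∈ M := by
        have h3 : s = D.e / x + D.A := by
          field_simp
          linear_combination q2
        rw [h3]
        exact add_mem (div_mem me hXM) mA
      refine ⟨hsM, ?_⟩
      have h3 : t = (D.a * D.U + (x + D.V ^ 2) * s) / D.U ^ 2 := by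
        field_simp
        linear_combination q1
      rw [h3]
      exact div_mem (add_mem (mul_mem ma mU) (mul_mem (add_mem hXM (pow_mem mV 2)) hsM))
        (pow_mem mU 2)
    · obtain ⟨κ, hκ⟩ : ∃ κ, κ = D.e / x - (1 + D.A + D.B) * k + D.B * k ^ 2 + D.A := ⟨_, rfl⟩
      have hκM : κ ∈ M := by
        rw [hκ]
        exact add_mem (add_mem (sub_mem (div_mem me hXM)
          (mul_mem (add_mem (add_mem (one_mem _) mA) mB) hkM)) (mul_mem mB (pow_mem hkM 2))) mA
      have hs' : s = k * t + κ := by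
        rw [hκ]
        field_simp
        linear_combination q2
      have htM : t ∈ M := by
        refine mem_of_two hM (d := x * k) (e := x * (κ + 2 * D.A * k - 2 * D.B * k))
          (f := x * ((D.A + D.B * k) ^ 2 - 2 * D.B * (κ + 2 * D.A * k)) - D.m) ?_ ?_ ?_ ?_ ?_
        · exact mul_mem hXM hkM
        · exact mul_mem hXM (sub_mem (add_mem hκM (mul_mem (mul_mem n2 mA) hkM))
            (mul_mem (mul_mem n2 mB) hkM))
        · exact sub_mem (mul_mem hXM (sub_mem (pow_mem (add_mem mA (mul_mem mB hkM)) 2)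
            (mul_mem (mul_mem n2 mB) (add_mem hκM (mul_mem (mul_mem n2 mA) hkM))))) mm
        · exact mul_ne_zero hX0 hk0
        · rw [hs'] at q3
          linear_combination q3
      refine ⟨?_, htM⟩
      rw [hs']
      exact add_mem (mul_mem hkM htM) hκM
  apply hz
  refine ⟨z 0, ![1, k, s, t], ?_, ?_⟩
  · intro i
    fin_cases i
    exacts [one_mem _, hkM, hst.1, hst.2]
  · intro i
    fin_cases i
    · simp
    · exact ek.symm
    · exact es.symm
    · exact et.symm

/-- **[Pts]** The points of the curve over `y` that are not proportional to a vector over a closed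
field that contains `y` are generic points of the surface. -/
theorem genS_toW [IsAlgClosed N] (h0 : P.P0 ≠ 0) (h2 : P.P2 ≠ 0)
    (hM : ∀ u, IsAlgebraic M u → u ∈ M) (hy : Transcendental ℂ y) (hyM : y ∈ M)
    (hQ : (kd P y).Q z = 0) (hC : (kd P y).Cf z = 0) (hz : ¬ Rat M z) :
    GenS P (toW P y z) := by
  have hz0 := z0_ne h0 h2 hM hy hyM hQ hC hz
  have hQ2 := Q2_ne h0 hy hQ hC hz0
  obtain ⟨e1, e2, e3⟩ := toW_E hz0 hQ2 hQ hC
  have hk := k_notMem h0 h2 hM hy hyM hQ hC hz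
  refine GenS.of_eqs h0 ?_ e1 e2 e3
  change AlgebraicIndependent ℂ ![y, z 1 / z 0]
  refine H288.indep_iff.2 ⟨hy, fun h => hk ?_⟩
  exact cl0_le hM (Set.singleton_subset_iff.2 hyM) h

end pts

end Vale.Agent.P297.H279.K2
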