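import Vale.Agent.P297.H279.K2.Main
import Vale.Agent.P297.H288.K2.Chord
import Vale.Agent.P297.H288.K2.Linf

/-!
The side of the canonical curves: the generic points of the surface from the chords, modulo the
classification of the roots of the form of the chords.
-/

set_option linter.unusedSectionVars false
set_option linter.unusedVariables false

open IntermediateField Polynomial

namespace Vale.Agent.P297.H279.K2

open Vale.Agent.P297 Vale.Agent.P297.Gen Vale.Agent.P297.H160.Z2Irr Vale.Agent.P297.Z2K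

section side

variable {K N : Type} [Field K] [Algebra ℂ K] [Field N] [Algebra ℂ N] [IsAlgClosed N]
  {P : Par} {x₀ : Fin 5 → K} {m : ℤ}

/-- The tangent space of the cubic surface at the points of the quadric on the nodal cubic does not
contain the generic point. -/
theorem c1_ne (hGI : HGI P N) (h0 : P.P0 ≠ 0) (hQ : P.Q0 ≠ P.Q1) {w : Fin 5 → N} (hw : GenS P w)
    {t : N} (h1 : (kd P (w 2)).Q ((kd P (w 2)).gam 1 t) = 0) :
    (kd P (w 2)).C1 ((kd P (w 2)).gam 1 t) (vec w) ≠ 0 := by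
  have hy := trans_y h0 hw
  have ht := t_mem_of_Q h0 hy h1
  have hyF : w 2 ∈ cl0 ({w 2} : Set N) := subset_cl0 _ rfl
  have mU : (kd P (w 2)).U ∈ cl0 ({w 2} : Set N) := mem_fU hyF
  have mV : (kd P (w 2)).V ∈ cl0 ({w 2} : Set N) := mem_fV hyF
  have ma : (kd P (w 2)).a ∈ cl0 ({w 2} : Set N) := mem_fa hyF
  have mc : (kd P (w 2)).c ∈ cl0 ({w 2} : Set N) := mem_fc hyF
  have mA : (kd P (w 2)).A ∈ cl0 ({w 2} : Set N) := mem_A hyF
  have mB : (kd P (w 2)).B ∈ cl0 ({w 2} : Set N) := mem_B hyF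
  have me : (kd P (w 2)).e ∈ cl0 ({w 2} : Set N) := mem_f2 hyF
  have mm : (kd P (w 2)).m ∈ cl0 ({w 2} : Set N) := mem_f3 hyF
  have m2 : (2 : N) ∈ cl0 ({w 2} : Set N) := two_mem'
  have he : (kd P (w 2)).e ≠ 0 := Z2K.e_ne hy
  have hU : (kd P (w 2)).U ≠ 0 := Z2K.U_ne' hy
  have hat : KD.dt (kd P (w 2)) t = 0 → KD.at' (kd P (w 2)) t ≠ 0 := fun h => at_ne hQ hy h
  have md : KD.dt (kd P (w 2)) t ∈ cl0 ({w 2} : Set N) :=
    sub_mem (pow_mem mU 2) (mul_mem (pow_mem mV 2) (pow_mem ht 2))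
  have mat : KD.at' (kd P (w 2)) t ∈ cl0 ({w 2} : Set N) :=
    add_mem (mul_mem ma mU) (mul_mem (mul_mem mc mV) ht)
  have hd : KD.dt (kd P (w 2)) t ≠ 0 := by
    intro hd
    have h3 := hat hd
    have h4 : t ≠ 0 := by
      rintro rfl
      unfold KD.dt at hd
      apply pow_ne_zero 2 hU
      linear_combination hd
    rw [KD.gam_one, hd] at h1
    simp only [KD.Q, KD.Q2, KD.Q3, Matrix.cons_val_zero, Matrix.cons_val_one,
      Matrix.cons_val] at h1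
    apply mul_ne_zero he (mul_ne_zero (pow_ne_zero 2 h4) (pow_ne_zero 2 h3))
    linear_combination -h1
  intro h2
  rw [C1_gx _ _ rfl] at h2
  have h3 := (mul_eq_zero.1 h2).resolve_left hd
  obtain ⟨S, hS⟩ : ∃ S, S = t * (t - 1) * KD.at' (kd P (w 2)) t +
      KD.dt (kd P (w 2)) t * ((1 + (kd P (w 2)).A + (kd P (w 2)).B) * t -
        (kd P (w 2)).B * t ^ 2 - (kd P (w 2)).A) := ⟨_, rfl⟩
  have mS : S ∈ cl0 ({w 2} : Set N) := by
    rw [hS]
    exact add_mem (mul_mem (mul_mem ht (sub_mem ht (one_mem _))) mat) (mul_mem md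
      (sub_mem (sub_mem (mul_mem (add_mem (add_mem (one_mem _) mA) mB) ht)
        (mul_mem mB (pow_mem ht 2))) mA))
  rw [← hS] at h3
  have hx : vec w 0 = 1 ∧ vec w 1 = w 1 ∧ vec w 2 = w 3 ∧ vec w 3 = w 4 := ⟨rfl, rfl, rfl, rfl⟩
  have h4 : (-(kd P (w 2)).e * (2 * t ^ 2 * KD.at' (kd P (w 2)) t) -
      S * ((kd P (w 2)).a * (kd P (w 2)).U)) +
      ((kd P (w 2)).e * (2 * KD.at' (kd P (w 2)) t * t) -
        S * ((kd P (w 2)).c * (kd P (w 2)).V)) * w 1 +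
      (-(kd P (w 2)).e * KD.dt (kd P (w 2)) t - S * (kd P (w 2)).V ^ 2) * w 3 +
      ((kd P (w 2)).e * (t ^ 2 * KD.dt (kd P (w 2)) t) + S * (kd P (w 2)).U ^ 2) * w 4 = 0 := by
    rw [KD.L, hx.1, hx.2.1, hx.2.2.1, hx.2.2.2] at h3
    linear_combination h3
  obtain ⟨-, -, l2, l3⟩ := li hGI h0 hw
    (sub_mem (mul_mem (neg_mem me) (mul_mem (mul_mem m2 (pow_mem ht 2)) mat))
      (mul_mem mS (mul_mem ma mU)))
    (sub_mem (mul_mem me (mul_mem (mul_mem m2 mat) ht)) (mul_mem mS (mul_mem mc mV)))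
    (sub_mem (mul_mem (neg_mem me) md) (mul_mem mS (pow_mem mV 2)))
    (add_mem (mul_mem me (mul_mem (pow_mem ht 2) md)) (mul_mem mS (pow_mem mU 2))) h4
  apply mul_ne_zero he (pow_ne_zero 2 hd)
  have h5 : KD.dt (kd P (w 2)) t =
    (kd P (w 2)).U ^ 2 - (kd P (w 2)).V ^ 2 * t ^ 2 := rfl
  have h6 : (kd P (w 2)).e * (KD.dt (kd P (w 2)) t *
      ((kd P (w 2)).U ^ 2 - (kd P (w 2)).V ^ 2 * t ^ 2)) = 0 := by
    linear_combination -(kd P (w 2)).U ^ 2 * l2 - (kd P (w 2)).V ^ 2 * l3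
  rw [← h5] at h6
  linear_combination h6

theorem den_ne (hGI : HGI P N) (h0 : P.P0 ≠ 0) {w : Fin 5 → N} (hw : GenS P w) :
    (kd P (w 2)).den (w 1) (w 3) ≠ 0 := by
  have hy := trans_y h0 hw
  have hyF : w 2 ∈ cl0 ({w 2} : Set N) := subset_cl0 _ rfl
  have mA : (kd P (w 2)).A ∈ cl0 ({w 2} : Set N) := mem_A hyF
  have me : (kd P (w 2)).e ∈ cl0 ({w 2} : Set N) := mem_f2 hyF
  have mm : (kd P (w 2)).m ∈ cl0 ({w 2} : Set N) := mem_f3 hyF
  have m2 : (2 : N) ∈ cl0 ({w 2} : Set N) := two_mem'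
  intro h
  unfold KD.den at h
  obtain ⟨-, -, l2, -⟩ := li hGI h0 hw (a := 0)
    (b := (kd P (w 2)).m + 2 * (kd P (w 2)).e * (kd P (w 2)).A) (c := (kd P (w 2)).e) (d := 0)
    (zero_mem _) (add_mem mm (mul_mem (mul_mem m2 me) mA)) me (zero_mem _)
    (by linear_combination h)
  exact Z2K.e_ne hy l2

/-- **The side of the canonical curves**, modulo the classification of the chords. -/
theorem kSide_of_chord9 (h0 : P.P0 ≠ 0) (h2 : P.P2 ≠ 0) (hQ : P.Q0 ≠ P.Q1)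
    (hP : ¬ (P.P1 - P.M1 = 2 * P.P0 ∧ P.P1 - P.M1 = 2 * P.P2))
    (h4 : Algebra.trdeg ℂ N = 4) (hx : H160.Z2Irr.IsFF P x₀)
    (hch : ∀ w : Fin 5 → N, GenS P w → ∀ t,
      (kd P (w 2)).g9 (vec w) ((kd P (w 2)).gam 1 t) = 0 →
      (∃ l w', H288.K2.IsChord P l t w w') ∨
        (∃ e : ℤ, e ≠ 0 ∧ e • H160.Z2Irr.pt x₀ w ∈ H72.Rel m K N)) :
    ∀ n : ℤ, n ≠ 0 → (∀ l w w', (∃ t, H288.K2.IsChord P l t w w') →
      n • (H160.Z2Irr.pt x₀ w + H160.Z2Irr.pt x₀ w') ∈ H72.Rel m K N) →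
      ∀ w, GenS P w → ∃ e : ℤ, e ≠ 0 ∧ e • H160.Z2Irr.pt x₀ w ∈ H72.Rel m K N := by
  intro n hn hC w hw
  have hGI : HGI P N := hgi_of h0 h2
  refine exists_smul_pt h0 h2 h4 hx hw (den_ne hGI h0 hw) (lead hGI h0 hw).1
    (lead hGI h0 hw).2 (fun t ht => ⟨fun h => f2_ne hGI h0 hQ hP hw ht h, c1_ne hGI h0 hQ hw ht⟩)
    fun t ht => ?_
  rcases hch w hw t ht with ⟨l, w', h⟩ | h
  · obtain ⟨c, hc, hz⟩ := h.thd
    exact Or.inl ⟨w', c, h.gen', h.y_eq, hc, hz, n, hn, hC l w w' ⟨t, h⟩⟩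
  · exact Or.inr h

end side

end Vale.Agent.P297.H279.K2
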